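import Vale.Agent.P174.Core0

/-! The core statement from the degree theorem and the selection theorem. -/

namespace Vale.Agent.P174

open scoped InnerProductSpace

universe u

namespace C

variable {G : Type u} [Group G] {B : Finset G} {t : ℕ}

omit [Group G] in
theorem norm_dl (b : G) (i : Option (Fin t)) : ‖dl B b i‖ ≤ 1 := by
  unfold dl
  split_ifs <;> simp

open Classical in
/-- The difference vectors of the partial translation by `g`. -/
noncomputable def dv (g : G) (p : B × Option (Fin t)) : V B t :=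
  if g * p.1 ∈ B then dl B p.1 p.2 - dl B (g * p.1) p.2 else 0

/-- The operator with columns `dv g`. -/
noncomputable def Q (B : Finset G) (t : ℕ) (g : G) : V B t →L[ℂ] V B t :=
  ∑ p, (EuclideanSpace.proj p).smulRight (dv g p)

theorem Q_apply (g : G) (y : V B t) : Q B t g y = ∑ p, y p • dv g p := by
  simp [Q]

theorem Q_dl {g b : G} (hb : b ∈ B) (hg : g * b ∈ B) (i : Option (Fin t)) :
    Q B t g (dl B b i) = dl B b i - dl B (g * b) i := by
  classical
  rw [Q_apply, Finset.sum_eq_single (⟨b, hb⟩, i) (fun p _ hp => by simp [dl, hb, hp]) (by simp)]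
  simp [dl, dv, hb, hg]

theorem norm_Q (g : G) : ‖Q B t g‖ ≤ 2 * Fintype.card (B × Option (Fin t)) := by
  refine ContinuousLinearMap.opNorm_le_bound _ (by positivity) fun y => ?_
  rw [Q_apply]
  refine (norm_sum_le _ _).trans ((Finset.sum_le_card_nsmul _ _ (‖y‖ * 2) fun p _ => ?_).trans
    (by rw [Finset.card_univ, nsmul_eq_mul]; linarith))
  rw [norm_smul]
  refine mul_le_mul (PiLp.norm_apply_le y p) ?_ (norm_nonneg _) (norm_nonneg _)
  unfold dv
  split_ifs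
  · exact (norm_sub_le _ _).trans (by linarith [norm_dl (B := B) p.1.1 p.2, norm_dl (B := B) (g * p.1) p.2])
  · simp

variable {L : V B t →L[ℂ] V B t} {d : ℝ}

theorem Q_kill (hL : Gram B t L) {g b : G} (g2 : g * g = 1) (hb : b ∈ B) (hg : g * b ∈ B)
    (i : Option (Fin t)) : star (L * Q B t g) (L (dl B b i + dl B (g * b) i)) = 0 := by
  refine ext_inner_left ℂ fun y => ?_
  rw [ContinuousLinearMap.star_eq_adjoint, ContinuousLinearMap.adjoint_inner_right,
    inner_zero_right, mul_apply_eq_comp, Q_apply, map_sum, sum_inner]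
  refine Finset.sum_eq_zero fun p _ => ?_
  rw [map_smul, inner_smul_left, dv]
  split_ifs with h
  · have e : g * (g * p.1) = p.1 := by rw [← mul_assoc, g2, one_mul]
    have h1 := hL.inv g p.1 b p.1.2 hb h hg p.2 i
    have h2 := hL.inv g (g * p.1) b h hb (e.symm ▸ p.1.2) hg p.2 i
    rw [e] at h2
    simp only [map_sub, map_add, inner_sub_left, inner_add_right, h1, h2]
    ring
  · simp

theorem est₁ (hd : 0 < d) (hL : Gram B t L) {g b : G} (g2 : g * g = 1) (hb : b ∈ B)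
    (hg : g * b ∈ B) (i : Option (Fin t)) :
    ‖cay d (L * Q B t g * star (L * Q B t g)) (L (dl B b i)) - L (dl B (g * b) i)‖ ≤ d := by
  have h1 := cay_est₁ hd (L * Q B t g) (dl B b i)
  have h2 := cay_est₂ hd (L * Q B t g) (L (dl B b i + dl B (g * b) i))
  rw [Q_kill hL g2 hb hg, norm_zero, mul_zero] at h2
  have h3 := norm_le_zero_iff.1 (nonpos_of_mul_nonpos_right h2 hd)
  rw [mul_apply_eq_comp, Q_dl hb hg] at h1
  generalize cay d (L * Q B t g * star (L * Q B t g)) = c at *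
  have e : c (L (dl B b i - dl B (g * b) i)) + L (dl B b i - dl B (g * b) i) =
      (2 : ℂ) • (c (L (dl B b i)) - L (dl B (g * b) i)) := by
    simp only [map_add, map_sub] at h3 ⊢
    linear_combination (norm := module) -h3
  rw [e, norm_smul, Complex.norm_ofNat] at h1
  nlinarith [norm_dl (B := B) b i]

theorem est₂ (hd : 0 < d) (hL : Gram B t L) (g : G) (z : V B t) :
    d * ‖cay d (L * Q B t g * star (L * Q B t g)) z - z‖ ≤
      4 * Fintype.card (B × Option (Fin t)) * ‖L z‖ := by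
  refine (cay_est₂ hd _ z).trans ?_
  have := (star_est hL.sa z).trans (mul_le_mul_of_nonneg_right (norm_Q g) (norm_nonneg _))
  linarith

omit [Group G] in
theorem small {ε ρ : ℝ} (ε0 : 0 < ε) (ε1 : t * ε ≤ 1 / 2) (hL : IsSelfAdjoint L)
    (a e : Fin t → V B t) (he : ∀ i, ‖e i‖ ≤ 1) (h1 : ∀ i, ‖L (e i) + ρ • a i‖ = 1)
    (h2 : ∑ i, ‖L (a i)‖ ^ 2 < ε ^ 2 * (1 + ∑ i, ‖L (e i)‖ ^ 2)) (h3 : ρ = 0 ∨ 1 ≤ ‖a‖) (i : Fin t) :
    ‖L (ρ • a i)‖ ≤ ε * (t + 1) := by
  obtain ⟨n, hn⟩ : ∃ n, n = ∑ i, ‖L (e i)‖ ^ 2 := ⟨_, rfl⟩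
  rw [← hn] at h2
  have a1 : ∀ i, 2 * ‖L (ρ • a i)‖ ≤ ε * (ρ ^ 2 + 1 + n) := fun i => by
    have b1 := (Finset.single_le_sum (f := fun i => ‖L (a i)‖ ^ 2) (fun _ _ => sq_nonneg _)
      (Finset.mem_univ i)).trans h2.le
    rw [L.map_smul_of_tower, norm_smul, Real.norm_eq_abs]
    refine le_of_mul_le_mul_left ?_ ε0
    nlinarith [sq_nonneg (ε * |ρ| - ‖L (a i)‖), sq_abs ρ]
  have a2 : ∀ i, ‖L (e i)‖ ^ 2 + ‖ρ • a i‖ ^ 2 ≤ 1 + ε * (ρ ^ 2 + 1 + n) := fun i => by
    have b1 := norm_add_sq (𝕜 := ℂ) (L (e i)) (ρ • a i)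
    have b2 : ⟪L (e i), ρ • a i⟫_ℂ = ⟪e i, L (ρ • a i)⟫_ℂ := by
      rw [← ContinuousLinearMap.adjoint_inner_right, ← ContinuousLinearMap.star_eq_adjoint,
        hL.star_eq]
    have b3 := (abs_le.1 ((RCLike.abs_re_le_norm _).trans ((norm_inner_le_norm (𝕜 := ℂ) (e i)
      (L (ρ • a i))).trans (mul_le_of_le_one_left (norm_nonneg _) (he i))))).1
    rw [h1, b2] at b1
    linarith [a1 i]
  have a3 := Finset.sum_le_card_nsmul _ _ _ fun i (_ : i ∈ Finset.univ) => a2 i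
  rw [Finset.sum_add_distrib, ← hn, Finset.card_univ, Fintype.card_fin, nsmul_eq_mul] at a3
  have a4 : ρ ^ 2 ≤ ∑ i, ‖ρ • a i‖ ^ 2 := by
    rcases h3 with rfl | h3
    · simp
    · obtain ⟨j, hj⟩ : ∃ j, 1 ≤ ‖a j‖ := by
        by_contra! h
        exact h3.not_gt ((pi_norm_lt_iff one_pos).2 h)
      refine le_trans ?_ (Finset.single_le_sum (f := fun i => ‖ρ • a i‖ ^ 2)
        (fun _ _ => sq_nonneg _) (Finset.mem_univ j))
      rw [norm_smul, mul_pow, Real.norm_eq_abs, sq_abs]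
      exact le_mul_of_one_le_right (sq_nonneg _) (one_le_pow₀ hj)
  have n0 : 0 ≤ n := hn ▸ Finset.sum_nonneg fun _ _ => sq_nonneg _
  have a5 : ρ ^ 2 + 1 + n ≤ 2 * (t + 1) := by
    nlinarith [mul_le_mul_of_nonneg_right ε1 (show 0 ≤ ρ ^ 2 + 1 + n by positivity)]
  nlinarith [a1 i, mul_le_mul_of_nonneg_left a5 ε0.le]

end C

open C in
theorem core (hGR : GRStmt.{u}) (hS : SelStmt.{u}) : CoreStmt.{u} := by
  classical
  intro G _ κ s hs m D D0 w hw g hg
  by_contra g1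
  obtain ⟨T, l₀, T1, T2⟩ := ctl' hg
  choose! r r1 r2 using T1
  choose B₁ l₁ h₁ using fun p => follow' s hs (r p)
  obtain ⟨B₂, l₂, h₂⟩ := follow' s hs g
  obtain ⟨t, ⟨π⟩⟩ := Finite.exists_equiv_fin T
  obtain ⟨B, b1, b2, b3, b4⟩ : ∃ B : Finset G, 1 ∈ B ∧ FreeGroup.lift s g ∈ B ∧ B₂ ⊆ B ∧
      ∀ p ∈ T, B₁ p ⊆ B := ⟨insert 1 (insert (FreeGroup.lift s g) (B₂ ∪ T.biUnion B₁)), by simp,
    by simp, fun x hx => by simp [hx], fun p hp x hx => by
      simp only [Finset.mem_insert, Finset.mem_union, Finset.mem_biUnion]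
      exact .inr (.inr (.inr ⟨p, hp, hx⟩))⟩
  obtain ⟨l, hl⟩ : ∃ l : ℝ, l = l₀ * T.sup l₁ + l₂ + 1 := ⟨_, rfl⟩
  have l0 : 0 < l := by rw [hl]; positivity
  obtain ⟨d, hd⟩ : ∃ d : ℝ, d = 1 / (2 * l) := ⟨_, rfl⟩
  have d0 : 0 < d := by rw [hd]; positivity
  obtain ⟨q, hq⟩ : ∃ q : ℝ, q = 4 * Fintype.card (B × Option (Fin t)) := ⟨_, rfl⟩
  have q0 : 0 ≤ q := by rw [hq]; positivity
  obtain ⟨ε, ε0, ε1, ε2⟩ : ∃ ε : ℝ, 0 < ε ∧ t * ε ≤ 1 / 2 ∧ q * (ε * (t + 1)) ≤ d * d := by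
    refine ⟨min (1 / 2) (d * d / (q + 1)) / (t + 1), by positivity, ?_, ?_⟩
    · rw [mul_div_assoc', div_le_iff₀ (by positivity)]
      nlinarith [min_le_left (1 / 2) (d * d / (q + 1)), (t.cast_nonneg : (0 : ℝ) ≤ t)]
    · rw [div_mul_cancel₀ _ (by positivity)]
      refine (mul_le_mul_of_nonneg_left (min_le_right _ _) q0).trans ?_
      rw [mul_div_assoc', div_le_iff₀ (by positivity)]
      nlinarith [mul_pos d0 d0]
  obtain ⟨L, Lc, hL⟩ := hS G B b1 t ε ε0
  obtain ⟨c, hc⟩ : ∃ c : ℝ → (Fin t → V B t) × ℝ → κ → unitary (V B t →L[ℂ] V B t),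
      ∀ x y k, c x y k = cayU d0 x (L y.1 * Q B t (s k)) := ⟨_, fun _ _ _ => rfl⟩
  have cc : ∀ k, Continuous fun p : ℝ × (Fin t → V B t) × ℝ => c p.1 p.2 k := fun k => by
    simp only [hc]
    exact cayU_cont d0 continuous_fst ((Lc.comp continuous_snd.fst).mul continuous_const)
  have c1 : ∀ z, Continuous fun p : ((Fin t → V B t) × ℝ) × (Fin m → unitary (V B t →L[ℂ] V B t)) =>
      (FreeGroup.lift (Sum.elim (c 1 p.1) p.2) z).1 := fun z => by
    refine cont_lift ?_ z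
    rintro (k | k)
    · exact (cc k).comp (f := fun p : ((Fin t → V B t) × ℝ) × _ => ((1 : ℝ), p.1))
        (continuous_const.prodMk continuous_fst)
    · exact (continuous_apply k).comp continuous_snd
  have c2 : ∀ z, Continuous fun p : ((Fin t → V B t) × ℝ) × (Fin m → unitary (V B t →L[ℂ] V B t)) =>
      L p.1.1 z := fun z => (Lc.comp continuous_fst.fst).clm_apply continuous_const
  obtain ⟨⟨a, a'⟩, x, ρ, y1, y2, y3⟩ := hGR (V B t →L[ℂ] V B t) ((Fin t → V B t) × ℝ) (by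
      rw [Module.finrank_prod, Module.finrank_self, ← Module.finrank_mul_finrank ℝ ℂ,
        Complex.finrank_real_complex]
      exact odd_two_mul_add_one _) κ m D D0 w hw c cc (fun y k => by rw [hc, cayU_zero])
    (fun y x => (fun i => (FreeGroup.lift (Sum.elim (c 1 y) x) (π.symm i).1.1).1
      (L y.1 (dl B 1 none)) - L y.1 (dl B 1 (some i)), 0))
    ((continuous_pi fun i => ((c1 _).clm_apply (c2 _)).sub (c2 _)).prodMk continuous_const)
  obtain ⟨hG, hL⟩ := hL a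
  generalize hev : FreeGroup.lift (Sum.elim (c 1 (a, a')) x) = ev at y2 y3
  have ev1 : ∀ r, ev (FreeGroup.map Sum.inl r) = FreeGroup.lift (c 1 (a, a')) r := fun r =>
    FreeGroup.lift_unique (ev.comp (FreeGroup.map Sum.inl)) fun k => by simp [← hev]
  have y4 : ∀ i, (ev (π.symm i).1.1).1 (L a (dl B 1 none)) = L a (dl B 1 (some i)) + ρ • a i :=
    fun i => sub_eq_iff_eq_add'.1 (congrFun (congrArg Prod.fst y3) i)
  have y5 := small ε0 ε1 hG.sa a _ (fun i => norm_dl 1 (some i)) (fun i => by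
    rw [← y4, Unitary.norm_map, hG.one 1 b1]) hL (by
      rcases smul_eq_zero.1 (congrArg Prod.snd y3).symm with h | h
      · exact .inl h
      · exact .inr (by simpa [show a' = 0 from h] using y1))
  have k1 : ∀ i z, ‖L a z‖ ≤ ε * (t + 1) → ∀ k, ∀ b ∈ B, s k * b ∈ B →
      dist ((c 1 (a, a') k).1 (L a (dl B b i) + z)) (L a (dl B (s k * b) i) + z) ≤ 2 * d :=
    fun i z hz k b hb hb' => by
      have e1 := est₁ d0 hG (hs k) hb hb' i
      have e2 := est₂ d0 hG (s k) z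
      rw [← hq] at e2
      have e3 := le_of_mul_le_mul_left ((e2.trans (mul_le_mul_of_nonneg_left hz q0)).trans ε2) d0
      rw [dist_eq_norm, map_add, add_sub_add_comm, two_mul, hc, cayU_one]
      exact (norm_add_le _ _).trans (add_le_add e1 e3)
  have k2 := T2 _ ev (by rintro _ ⟨i, rfl⟩; exact y2 i) (L a (dl B 1 none))
    (T.sup l₁ * (2 * d)) fun p hp => by
      have := h₁ p B (b4 p hp) _ _ (fun b => L a (dl B b (some (π ⟨p, hp⟩))) + ρ • a (π ⟨p, hp⟩)) _
        (k1 (some (π ⟨p, hp⟩)) _ (y5 _))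
      rw [MonoidHom.mem_ker.1 (r1 p hp), ← y4, π.symm_apply_apply, ← ev1, r2 p hp] at this
      exact this.trans (mul_le_mul_of_nonneg_right (Nat.cast_le.2 (Finset.le_sup hp)) (by linarith))
  have k3 := h₂ B b3 _ _ (fun b => L a (dl B b none) + 0) _
    (k1 none 0 (by rw [map_zero, norm_zero]; positivity))
  rw [add_zero, add_zero, ← ev1] at k3
  have k4 := dist_triangle_left (L a (dl B 1 none)) (L a (dl B (FreeGroup.lift s g) none))
    ((ev (FreeGroup.map Sum.inl g)).1 (L a (dl B 1 none)))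
  have k5 := norm_sub_sq (𝕜 := ℂ) (L a (dl B 1 none)) (L a (dl B (FreeGroup.lift s g) none))
  rw [hG.orth 1 b1 _ b2 (Ne.symm g1), hG.one 1 b1, hG.one _ b2, map_zero, ← dist_eq_norm] at k5
  have k6 : l * (2 * d) = 1 := by rw [hd]; field_simp
  rw [hl] at k6
  nlinarith [dist_nonneg (x := L a (dl B 1 none)) (y := L a (dl B (FreeGroup.lift s g) none))]

end Vale.Agent.P174
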