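import Vale.Agent.P174.Stmts

/-! Almost fixed vectors and Cayley transforms. -/

namespace Vale.Agent.P174.C

open scoped InnerProductSpace

universe u

section Words

variable {F G κ : Type u} [Group F] [Group G]

/-- `z` almost fixes a point as soon as finitely many conjugates of elements of `R` do. -/
def Ctl (W R : Set F) (z : F) : Prop :=
  ∃ (T : Finset (F × F)) (l : ℕ), (∀ p ∈ T, p.2 ∈ R) ∧ ∀ (E U : Type u) [PseudoMetricSpace E]
    [Group U] [MulAction U E] [IsIsometricSMul U E] (ev : F →* U), (∀ x ∈ W, ev x = 1) →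
    ∀ (ξ : E) (e : ℝ), (∀ p ∈ T, dist (ev p.2 • ev p.1 • ξ) (ev p.1 • ξ) ≤ e) →
      dist (ev z • ξ) ξ ≤ l * e

theorem ctl {W R : Set F} {z : F} (hz : z ∈ Subgroup.normalClosure (W ∪ R)) : Ctl W R z := by
  classical
  let N : Subgroup F :=
    { carrier := {z | Ctl W R z}
      one_mem' := ⟨∅, 0, by simp, fun E U _ _ _ _ ev _ ξ e _ => by simp⟩
      mul_mem' := fun {a b} ⟨T, l, h1, h2⟩ ⟨T', l', h3, h4⟩ => ⟨T ∪ T', l + l', fun p hp =>
        (Finset.mem_union.1 hp).elim (h1 p) (h3 p), fun E U _ _ _ _ ev hW ξ e he => by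
          have a1 := h2 E U ev hW ξ e fun p hp => he p (Finset.mem_union_left _ hp)
          have a2 := h4 E U ev hW ξ e fun p hp => he p (Finset.mem_union_right _ hp)
          have a3 := dist_triangle (ev a • ev b • ξ) (ev a • ξ) ξ
          rw [dist_smul] at a3
          rw [map_mul, mul_smul]
          push_cast
          linarith⟩
      inv_mem' := fun {a} ⟨T, l, h1, h2⟩ => ⟨T, l, h1, fun E U _ _ _ _ ev hW ξ e he => by
        rw [← dist_smul (ev a), map_inv, smul_inv_smul, dist_comm]
        exact h2 E U ev hW ξ e he⟩ }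
  have : N.Normal := ⟨fun a ⟨T, l, h1, h2⟩ x => ⟨T.image fun p => (p.1 * x⁻¹, p.2), l,
    fun p hp => by
      obtain ⟨q, hq, rfl⟩ := Finset.mem_image.1 hp
      exact h1 q hq, fun E U _ _ _ _ ev hW ξ e he => by
      rw [← dist_smul (ev x⁻¹), ← mul_smul, ← map_mul, ← mul_assoc, inv_mul_cancel_left, map_mul,
        mul_smul]
      refine h2 E U ev hW _ e fun p hp => ?_
      have := he _ (Finset.mem_image_of_mem _ hp)
      rwa [map_mul, mul_smul] at this⟩⟩
  refine Subgroup.normalClosure_le_normal (N := N) ?_ hz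
  rintro x (hx | hx)
  · exact ⟨∅, 0, by simp, fun E U _ _ _ _ ev hW ξ e _ => by simp [hW x hx]⟩
  · exact ⟨{(1, x)}, 1, by simpa using hx, fun E U _ _ _ _ ev hW ξ e he => by simpa using he⟩

/-- Almost equivariant maps on a large finite set follow a given word. -/
theorem follow (s : κ → G) (hs : ∀ k, s k * s k = 1) (r : FreeGroup κ) (b : G) :
    ∃ (B₀ : Finset G) (l : ℕ), ∀ B : Finset G, B₀ ⊆ B → ∀ (E U : Type u) [PseudoMetricSpace E]
      [Group U] [MulAction U E] [IsIsometricSMul U E] (c : κ → U) (φ : G → E) (e : ℝ),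
      (∀ k, ∀ b ∈ B, s k * b ∈ B → dist (c k • φ b) (φ (s k * b)) ≤ e) →
      dist (FreeGroup.lift c r • φ b) (φ (FreeGroup.lift s r * b)) ≤ l * e := by
  classical
  induction r using FreeGroup.induction_on generalizing b with
  | C1 => exact ⟨∅, 0, fun B _ E U _ _ _ _ c φ e _ => by simp⟩
  | of k => exact ⟨{b, s k * b}, 1, fun B hB E U _ _ _ _ c φ e h => by
      simpa using h k b (hB (by simp)) (hB (by simp))⟩
  | inv_of k _ =>
    refine ⟨{b, s k * b}, 1, fun B hB E U _ _ _ _ c φ e h => ?_⟩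
    have e1 : s k * (s k * b) = b := by rw [← mul_assoc, hs, one_mul]
    have := h k (s k * b) (hB (by simp)) (hB (by simp [e1]))
    rw [map_inv, map_inv, FreeGroup.lift_apply_of, FreeGroup.lift_apply_of,
      inv_eq_of_mul_eq_one_right (hs k), ← dist_smul (c k), smul_inv_smul, dist_comm]
    simpa [e1] using this
  | mul x y hx hy =>
    obtain ⟨B₁, l₁, h₁⟩ := hy b
    obtain ⟨B₂, l₂, h₂⟩ := hx (FreeGroup.lift s y * b)
    refine ⟨B₁ ∪ B₂, l₁ + l₂, fun B hB E U _ _ _ _ c φ e h => ?_⟩
    have a1 := h₁ B (Finset.subset_union_left.trans hB) E U c φ e h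
    have a2 := h₂ B (Finset.subset_union_right.trans hB) E U c φ e h
    have a3 := dist_triangle (FreeGroup.lift c x • FreeGroup.lift c y • φ b)
      (FreeGroup.lift c x • φ (FreeGroup.lift s y * b))
      (φ (FreeGroup.lift s x * (FreeGroup.lift s y * b)))
    rw [dist_smul] at a3
    rw [map_mul, map_mul, mul_smul, mul_assoc]
    push_cast
    linarith

end Words

section Cay

variable {A : Type*} [CStarAlgebra A] {d : ℝ} {M : A}

/-- The resolvent. -/
noncomputable def res (d : ℝ) (M : A) : A :=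
  Ring.inverse (algebraMap ℂ A (Complex.I * d ^ 2) - M)

/-- The Cayley transform. -/
noncomputable def cay (d : ℝ) (M : A) : A := (2 * (Complex.I * d ^ 2) : ℂ) • res d M - 1

theorem res_unit (hd : 0 < d) (hM : IsSelfAdjoint M) :
    IsUnit (algebraMap ℂ A (Complex.I * d ^ 2) - M) := by
  by_contra h
  have := congrArg Complex.im (hM.mem_spectrum_eq_re (spectrum.mem_iff.2 h))
  simp [sq, hd.ne'] at this

theorem res_mul (hd : 0 < d) (hM : IsSelfAdjoint M) :
    (Complex.I * d ^ 2 : ℂ) • res d M - res d M * M = 1 := by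
  rw [← Ring.inverse_mul_cancel _ (res_unit hd hM), mul_sub, Algebra.algebraMap_eq_smul_one,
    mul_smul_comm, mul_one, res, Algebra.algebraMap_eq_smul_one]

theorem mul_res (hd : 0 < d) (hM : IsSelfAdjoint M) :
    (Complex.I * d ^ 2 : ℂ) • res d M - M * res d M = 1 := by
  rw [← Ring.mul_inverse_cancel _ (res_unit hd hM), sub_mul, Algebra.algebraMap_eq_smul_one,
    smul_mul_assoc, one_mul, res, Algebra.algebraMap_eq_smul_one]

theorem cay_sub (hd : 0 < d) (hM : IsSelfAdjoint M) : cay d M - 1 = (2 : ℂ) • (res d M * M) := by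
  rw [cay, mul_smul, sub_eq_iff_eq_add.1 (res_mul hd hM)]
  module

theorem cay_mem (hd : 0 < d) (hM : IsSelfAdjoint M) : cay d M ∈ unitary A := by
  have h1 := res_mul hd hM
  have h2 := mul_res hd hM
  have h3 := congrArg star h1
  have h4 := congrArg star h2
  have e : star (Complex.I * d ^ 2 : ℂ) = -(Complex.I * d ^ 2) := by simp
  have e2 : star (cay d M) = -(2 * (Complex.I * d ^ 2) : ℂ) • star (res d M) - 1 := by
    rw [cay, star_sub, star_smul, star_one]
    simp
  simp only [star_sub, star_smul, star_mul, star_one, hM.star_eq, e] at h3 h4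
  rw [Unitary.mem_iff, e2, cay]
  generalize (Complex.I * d ^ 2 : ℂ) = c at *
  generalize res d M = R at *
  have k1 : star R - R = (2 * c) • (star R * R) := by
    have a1 : star R = star R * (c • R - M * R) := by rw [h2, mul_one]
    have a2 : R = (-c • star R - star R * M) * R := by rw [h4, one_mul]
    calc _ = star R * (c • R - M * R) - (-c • star R - star R * M) * R := by rw [← a1, ← a2]
      _ = _ := by
        simp only [mul_sub, sub_mul, mul_smul_comm, smul_mul_assoc, mul_assoc]
        module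
  have k2 : star R - R = (2 * c) • (R * star R) := by
    have a1 : star R = (c • R - R * M) * star R := by rw [h1, one_mul]
    have a2 : R = R * (-c • star R - M * star R) := by rw [h3, mul_one]
    calc _ = (c • R - R * M) * star R - R * (-c • star R - M * star R) := by rw [← a1, ← a2]
      _ = _ := by
        simp only [mul_sub, sub_mul, mul_smul_comm, smul_mul_assoc, mul_assoc]
        module
  constructor <;> simp only [mul_sub, sub_mul, mul_smul_comm, smul_mul_assoc, mul_one, one_mul]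
  · linear_combination (norm := module) (2 * c) • k1
  · linear_combination (norm := module) (2 * c) • k2

theorem cay_cont {X : Type*} [TopologicalSpace X] (hd : 0 < d) {f : X → A} (hf : Continuous f)
    (h : ∀ x, IsSelfAdjoint (f x)) : Continuous fun x => cay d (f x) := by
  refine (Continuous.const_smul (continuous_iff_continuousAt.2 fun x => ?_) _).sub continuous_const
  obtain ⟨v, hv⟩ := res_unit hd (h x)
  exact ContinuousAt.comp (f := fun x => algebraMap ℂ A (Complex.I * d ^ 2) - f x)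
    (hv ▸ NormedRing.inverse_continuousAt v) (continuous_const.sub hf).continuousAt

theorem cay_zero (hd : 0 < d) : cay d (0 : A) = 1 := by
  have := cay_sub hd (IsSelfAdjoint.zero A)
  rwa [mul_zero, smul_zero, sub_eq_zero] at this

variable {E : Type*} [NormedAddCommGroup E] [InnerProductSpace ℂ E] [CompleteSpace E]

theorem res_est (hd : 0 < d) (T : E →L[ℂ] E) (y : E) :
    d * ‖res d (T * star T) (T y)‖ ≤ ‖y‖ := by
  have h := congrArg (fun X : E →L[ℂ] E => X (T y)) (mul_res hd (IsSelfAdjoint.mul_star_self T))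
  generalize hz : res d (T * star T) (T y) = z
  have h1 : (Complex.I * d ^ 2 : ℂ) • z - T (star T z) = T y := by rw [← hz]; exact h
  have h2 := congrArg (fun v => ⟪z, v⟫_ℂ) h1
  simp only [inner_sub_right, inner_smul_right, ← ContinuousLinearMap.adjoint_inner_left,
    ← ContinuousLinearMap.star_eq_adjoint, inner_self_eq_norm_sq_to_K] at h2
  have h3 := norm_inner_le_norm (𝕜 := ℂ) (star T z) y
  rw [← h2] at h3
  have h4 := (Complex.abs_re_le_norm _).trans h3
  have h5 := (Complex.abs_im_le_norm _).trans h3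
  simp [sq] at h4 h5
  have h6 : ‖star T z‖ ≤ ‖y‖ := by
    rcases (norm_nonneg (star T z)).eq_or_lt with h0 | h0
    · rw [← h0]; positivity
    · exact le_of_mul_le_mul_left h4 h0
  refine le_of_sq_le_sq ?_ (norm_nonneg _)
  nlinarith [mul_le_mul_of_nonneg_right h6 (norm_nonneg y)]

theorem cay_est₁ (hd : 0 < d) (T : E →L[ℂ] E) (y : E) :
    ‖cay d (T * star T) (T y) + T y‖ ≤ 2 * d * ‖y‖ := by
  have e : cay d (T * star T) (T y) + T y =
      (2 * (Complex.I * d ^ 2) : ℂ) • res d (T * star T) (T y) := by simp [cay]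
  rw [e, norm_smul]
  simp only [norm_mul, Complex.norm_ofNat, Complex.norm_I, norm_pow, Complex.norm_real,
    Real.norm_of_nonneg hd.le]
  nlinarith [mul_le_mul_of_nonneg_left (res_est hd T y) hd.le]

theorem cay_est₂ (hd : 0 < d) (T : E →L[ℂ] E) (z : E) :
    d * ‖cay d (T * star T) z - z‖ ≤ 2 * ‖star T z‖ := by
  have e : cay d (T * star T) z - z = (2 : ℂ) • res d (T * star T) (T (star T z)) :=
    congrArg (fun X : E →L[ℂ] E => X z) (cay_sub hd (IsSelfAdjoint.mul_star_self T))
  rw [e, norm_smul, Complex.norm_ofNat]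
  linarith [res_est hd T (star T z)]

theorem sa_smul (x : ℝ) (T : E →L[ℂ] E) : IsSelfAdjoint ((x : ℂ) • (T * star T)) :=
  IsSelfAdjoint.smul (Complex.conj_ofReal x) (IsSelfAdjoint.mul_star_self T)

/-- The Cayley path. -/
noncomputable def cayU (hd : 0 < d) (x : ℝ) (T : E →L[ℂ] E) : unitary (E →L[ℂ] E) :=
  ⟨cay d ((x : ℂ) • (T * star T)), cay_mem hd (sa_smul x T)⟩

theorem cayU_zero (hd : 0 < d) (T : E →L[ℂ] E) : cayU hd 0 T = 1 :=
  Subtype.ext (by simp only [cayU, Complex.ofReal_zero, zero_smul]; exact cay_zero hd)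

theorem cayU_one (hd : 0 < d) (T : E →L[ℂ] E) : (cayU hd 1 T).1 = cay d (T * star T) := by
  simp only [cayU, Complex.ofReal_one, one_smul]

theorem cayU_cont {X : Type*} [TopologicalSpace X] (hd : 0 < d) {f : X → ℝ} {T : X → E →L[ℂ] E}
    (hf : Continuous f) (hT : Continuous T) : Continuous fun x => cayU hd (f x) (T x) :=
  (cay_cont hd ((Complex.continuous_ofReal.comp hf).smul (hT.mul hT.star))
    fun _ => sa_smul _ _).subtype_mk _

theorem star_est {L T : E →L[ℂ] E} (hL : IsSelfAdjoint L) (z : E) :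
    ‖star (L * T) z‖ ≤ ‖T‖ * ‖L z‖ := by
  rw [star_mul, hL.star_eq, ← norm_star T]
  exact (star T).le_opNorm _

theorem iso_un : IsIsometricSMul (unitary (E →L[ℂ] E)) E := ⟨fun v =>
  Isometry.of_dist_eq fun z z' => by
    change dist (v.1 z) (v.1 z') = _
    rw [dist_eq_norm, dist_eq_norm, ← map_sub, Unitary.norm_map]⟩

theorem cont_lift {X κ : Type*} [TopologicalSpace X] {c : X → κ → unitary (E →L[ℂ] E)}
    (hc : ∀ k, Continuous fun x => c x k) (r : FreeGroup κ) :
    Continuous fun x => (FreeGroup.lift (c x) r).1 := by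
  refine continuous_subtype_val.comp ?_
  induction r using FreeGroup.induction_on with
  | C1 => simpa using continuous_const
  | of k => simpa using hc k
  | inv_of k h => simpa using (hc k).fun_inv
  | mul x y hx hy => simpa using hx.fun_mul hy

end Cay

theorem ctl' {F : Type u} [Group F] {W R : Set F} {z : F}
    (hz : z ∈ Subgroup.normalClosure (W ∪ R)) :
    ∃ (T : Finset (F × F)) (l : ℕ), (∀ p ∈ T, p.2 ∈ R) ∧ ∀ (E : Type u) [NormedAddCommGroup E]
      [InnerProductSpace ℂ E] [CompleteSpace E] (ev : F →* unitary (E →L[ℂ] E)),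
      (∀ x ∈ W, ev x = 1) → ∀ (ξ : E) (e : ℝ),
      (∀ p ∈ T, dist ((ev p.2).1 ((ev p.1).1 ξ)) ((ev p.1).1 ξ) ≤ e) →
      dist ((ev z).1 ξ) ξ ≤ l * e := by
  obtain ⟨T, l, h1, h2⟩ := ctl hz
  refine ⟨T, l, h1, fun E _ _ _ => ?_⟩
  have := iso_un (E := E)
  exact h2 E _

theorem follow' {G κ : Type u} [Group G] (s : κ → G) (hs : ∀ k, s k * s k = 1) (r : FreeGroup κ) :
    ∃ (B₀ : Finset G) (l : ℕ), ∀ B : Finset G, B₀ ⊆ B → ∀ (E : Type u) [NormedAddCommGroup E]
      [InnerProductSpace ℂ E] [CompleteSpace E] (c : κ → unitary (E →L[ℂ] E)) (φ : G → E) (e : ℝ),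
      (∀ k, ∀ b ∈ B, s k * b ∈ B → dist ((c k).1 (φ b)) (φ (s k * b)) ≤ e) →
      dist ((FreeGroup.lift c r).1 (φ 1)) (φ (FreeGroup.lift s r)) ≤ l * e := by
  obtain ⟨B₀, l, h⟩ := follow s hs r 1
  refine ⟨B₀, l, fun B hB E _ _ _ => ?_⟩
  have := iso_un (E := E)
  rw [mul_one] at h
  exact h B hB E _

end Vale.Agent.P174.C
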