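import Mathlib

namespace Vale.Agent.P174

/-- The exponent-sum homomorphism `G * F_n → ℤ^n`: it kills `G` and sends `x_j` to `e_j`. -/
def expo (G : Type*) [Group G] (n : ℕ) :
    Monoid.Coprod G (FreeGroup (Fin n)) →* Multiplicative (Fin n → ℤ) :=
  Monoid.Coprod.lift 1 (FreeGroup.lift fun j => Multiplicative.ofAdd (Pi.single j 1))

/-- The exponent-sum matrix of the system `w`, viewed over `ℚ`. -/
def expoMatrix {G : Type*} [Group G] {m n : ℕ} (w : Fin m → Monoid.Coprod G (FreeGroup (Fin n))) :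
    Matrix (Fin m) (Fin n) ℚ :=
  fun i j => ((Multiplicative.toAdd (expo G n (w i)) j : ℤ) : ℚ)

end Vale.Agent.P174
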