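import Vale.Agent.P174.Null

namespace Vale.Agent.P174

open MeasureTheory Set Filter Topology Module
open scoped Manifold

variable {E : Type*} [NormedAddCommGroup E] [NormedSpace ℝ E] [FiniteDimensional ℝ E]

structure IsT (T : E → E) : Prop where
  diff : ContDiff ℝ 1 T
  nonneg : ∀ z, 0 ≤ (fderiv ℝ T z).det
  zero : ∀ z, 1 < ‖z‖ → (fderiv ℝ T z).det = 0
  pos : 0 < (fderiv ℝ T 0).det

lemma exists_T_pi (n : ℕ) : ∃ T : (Fin n → ℝ) → (Fin n → ℝ), IsT T := by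
  set b : ℝ → ℝ := fun x => max 0 (1 - |x|) with hb
  have cb : Continuous b := by fun_prop
  set θ : ℝ → ℝ := fun x => ∫ u in (0 : ℝ)..x, b u with hθ
  have hd : ∀ x, HasDerivAt θ (b x) x := fun x => (cb.integral_hasStrictDerivAt 0 x).hasDerivAt
  have hθ1 : ContDiff ℝ 1 θ := contDiff_one_iff_deriv.2 ⟨fun x => (hd x).differentiableAt, by
    rwa [show deriv θ = b from funext fun x => (hd x).deriv]⟩
  have hdet : ∀ z : Fin n → ℝ, (fderiv ℝ (fun z i => θ (z i)) z).det = ∏ i, b (z i) := fun z => by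
    have : HasFDerivAt (fun (z : Fin n → ℝ) i => θ (z i)) (ContinuousLinearMap.pi fun i =>
        b (z i) • ContinuousLinearMap.proj i) z := hasFDerivAt_pi.2 fun i => by
      have := (hd (z i)).comp_hasFDerivAt z (hasFDerivAt_apply (𝕜 := ℝ) i z)
      exact this
    rw [this.fderiv, ContinuousLinearMap.det, ← Matrix.det_diagonal, ← LinearMap.det_toLin']
    congr 1
    ext i j
    simp [Matrix.mulVec_diagonal]
  refine ⟨fun z i => θ (z i), contDiff_pi.2 fun i => hθ1.comp (contDiff_apply ℝ ℝ i),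
    fun z => ?_, fun z hz => ?_, ?_⟩
  · rw [hdet]; exact Finset.prod_nonneg fun i _ => le_max_left _ _
  · rw [hdet]
    by_contra h
    refine absurd ((pi_norm_le_iff_of_nonneg zero_le_one).2 fun i => ?_) (not_le.2 hz)
    by_contra hi
    exact h (Finset.prod_eq_zero (Finset.mem_univ i)
      (max_eq_left (by rw [Real.norm_eq_abs] at hi; linarith)))
  · rw [hdet]; simp [hb]

lemma exists_T : ∃ T : E → E, IsT T := by
  obtain ⟨T, hT⟩ := exists_T_pi (finrank ℝ E)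
  let e0 : E ≃L[ℝ] (Fin (finrank ℝ E) → ℝ) := ContinuousLinearEquiv.ofFinrankEq (by simp)
  set c : ℝ := ‖(e0.symm : (Fin (finrank ℝ E) → ℝ) →L[ℝ] E)‖ + 1 with hc
  have hc0 : 0 < c := by positivity
  let e : E ≃L[ℝ] (Fin (finrank ℝ E) → ℝ) :=
    e0.trans (ContinuousLinearEquiv.smulLeft (Units.mk0 c hc0.ne'))
  have he : ∀ z, ‖z‖ ≤ ‖e z‖ := fun z => by
    have := (e0.symm : (Fin (finrank ℝ E) → ℝ) →L[ℝ] E).le_opNorm (e0 z)
    simp only [ContinuousLinearEquiv.coe_coe, ContinuousLinearEquiv.symm_apply_apply] at this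
    have h2 : ‖e z‖ = c * ‖e0 z‖ := by simp [e, Units.smul_def, norm_smul, abs_of_pos hc0]
    rw [h2]; nlinarith [norm_nonneg (e0 z)]
  have hdet : ∀ z, (fderiv ℝ (fun z => e.symm (T (e z))) z).det = (fderiv ℝ T (e z)).det :=
    fun z => by
    have := (e.symm.hasFDerivAt.comp z ((hT.diff.differentiable one_ne_zero (e z)).hasFDerivAt.comp
      z e.hasFDerivAt)).fderiv
    rw [show (fun z => e.symm (T (e z))) = e.symm ∘ T ∘ e from rfl, this]
    exact LinearMap.det_conj (fderiv ℝ T (e z) : _ →ₗ[ℝ] _) e.symm.toLinearEquiv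
  refine ⟨fun z => e.symm (T (e z)), e.symm.contDiff.comp (hT.diff.comp e.contDiff),
    fun z => ?_, fun z hz => ?_, ?_⟩
  · rw [hdet]; exact hT.nonneg _
  · rw [hdet]; exact hT.zero _ (hz.trans_le (he z))
  · rw [hdet, map_zero]; exact hT.pos

noncomputable def jac (T F : E → E) (x : E) : ℝ := (fderiv ℝ T (F x)).det * (fderiv ℝ F x).det

variable {T : E → E} {C Ω : Set E}

lemma jac_zero (hT : IsT T) {F : E → E} {x : E} (h : 1 < ‖F x‖) : jac T F x = 0 := by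
  rw [jac, hT.zero _ h, zero_mul]

lemma jac_congr {F G : E → E} {x : E} (h : F =ᶠ[𝓝 x] G) : jac T F x = jac T G x := by
  rw [jac, jac, h.fderiv_eq, h.self_of_nhds]

lemma det_comp_eq (hT : IsT T) {F G : E → E} {x : E} (hF : DifferentiableAt ℝ F x)
    (h : G =ᶠ[𝓝 x] fun y => T (F y)) : (fderiv ℝ G x).det = jac T F x := by
  rw [h.fderiv_eq, show (fun y => T (F y)) = T ∘ F from rfl,
    fderiv_comp x (hT.diff.differentiable one_ne_zero _) hF, jac]
  exact LinearMap.det_comp _ _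

lemma exists_cut {K : Set E} (hK : IsCompact K) (hΩ : IsOpen Ω) (h : K ⊆ Ω) :
    ∃ (K' : Set E) (χ : E → ℝ), IsCompact K' ∧ K' ⊆ Ω ∧ ContDiff ℝ 1 χ ∧
      (∀ x ∈ K, χ =ᶠ[𝓝 x] fun _ => 1) ∧ (∀ x ∉ K', χ =ᶠ[𝓝 x] fun _ => 0) ∧ ∀ x, χ x ∈ Icc 0 1 := by
  obtain ⟨K', h1, h2, h3⟩ := exists_compact_between hK hΩ h
  obtain ⟨f, f1, f0, f2⟩ := exists_contMDiffMap_one_nhds_of_subset_interior 𝓘(ℝ, E) (n := 1)
    hK.isClosed h2
  refine ⟨K', f, h1, h3, f.contMDiff.contDiff, fun x hx => f1.filter_mono (nhds_le_nhdsSet hx),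
    fun x hx => ?_, f2⟩
  filter_upwards [h1.isClosed.isOpen_compl.mem_nhds hx] with y hy using f0 y hy

lemma cut_diff {K : Set E} (hK : IsCompact K) (hΩ : IsOpen Ω) (h : K ⊆ Ω) {χ : E → ℝ}
    (hχ : ContDiff ℝ 1 χ) (h0 : ∀ x ∉ K, χ =ᶠ[𝓝 x] fun _ => 0) {F : E → E}
    (hF : ContDiffOn ℝ 1 F Ω) :
    ContDiff ℝ 1 (fun x => χ x • F x) ∧ HasCompactSupport fun x => χ x • F x := by
  refine ⟨contDiff_iff_contDiffAt.2 fun x => ?_, HasCompactSupport.intro hK fun x hx => by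
    rw [(h0 x hx).self_of_nhds, zero_smul]⟩
  by_cases hx : x ∈ K
  · exact hχ.contDiffAt.smul (hF.contDiffAt (hΩ.mem_nhds (h hx)))
  · refine (contDiffAt_const (c := (0 : E))).congr_of_eventuallyEq ?_
    filter_upwards [h0 x hx] with y hy
    rw [hy, zero_smul]

lemma jac_contOn (hT : IsT T) (hΩ : IsOpen Ω) {F : E → E} (hF : ContDiffOn ℝ 1 F Ω) :
    ContinuousOn (jac T F) Ω :=
  (ContinuousLinearMap.continuous_det.comp_continuousOn
    ((hT.diff.continuous_fderiv one_ne_zero).comp_continuousOn hF.continuousOn)).mul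
    (ContinuousLinearMap.continuous_det.comp_continuousOn
      (hF.continuousOn_fderiv_of_isOpen hΩ le_rfl))

variable [MeasurableSpace E] [BorelSpace E] (μ : Measure E) [μ.IsAddHaarMeasure]

lemma jac_integrableOn (hT : IsT T) (hC : IsCompact C) (hΩ : IsOpen Ω) (hs : Ω ⊆ C) {F : E → E}
    (hc : ContinuousOn F C) (hF : ContDiffOn ℝ 1 F Ω) (hb : ∀ x ∈ C \ Ω, 1 < ‖F x‖) :
    IntegrableOn (jac T F) Ω μ := by
  have hK : IsCompact (C ∩ (fun x => ‖F x‖) ⁻¹' Iic 1) := hC.of_isClosed_subset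
    (hc.norm.preimage_isClosed_of_isClosed hC.isClosed isClosed_Iic) inter_subset_left
  have hKΩ : C ∩ (fun x => ‖F x‖) ⁻¹' Iic 1 ⊆ Ω := fun x hx =>
    by_contra fun h => absurd (hb x ⟨hx.1, h⟩) (not_lt.2 hx.2)
  refine (((jac_contOn hT hΩ hF).mono hKΩ).integrableOn_compact hK).of_forall_diff_eq_zero
    hΩ.measurableSet fun x hx => jac_zero hT (not_le.1 fun h => hx.2 ⟨hs hx.1, h⟩)

theorem jac_inv [Nontrivial E] (hT : IsT T) (hC : IsCompact C) (hΩ : IsOpen Ω) (hs : Ω ⊆ C)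
    {F G : E → E} (cF : ContinuousOn F C) (dF : ContDiffOn ℝ 1 F Ω) (cG : ContinuousOn G C)
    (dG : ContDiffOn ℝ 1 G Ω)
    (hb : ∀ x ∈ C \ Ω, ∀ s ∈ Icc (0 : ℝ) 1, 1 < ‖F x + s • (G x - F x)‖) :
    ∫ x in Ω, jac T F x ∂μ = ∫ x in Ω, jac T G x ∂μ := by
  set K : Set E := Prod.fst '' ((C ×ˢ Icc (0 : ℝ) 1) ∩
    (fun p : E × ℝ => ‖F p.1 + p.2 • (G p.1 - F p.1)‖) ⁻¹' Iic 1) with hKd
  have hCI := hC.prod (isCompact_Icc (a := (0 : ℝ)) (b := 1))
  have c1 : ContinuousOn (fun p : E × ℝ => F p.1) (C ×ˢ Icc (0 : ℝ) 1) :=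
    cF.comp continuousOn_fst fun p hp => hp.1
  have c2 : ContinuousOn (fun p : E × ℝ => G p.1) (C ×ˢ Icc (0 : ℝ) 1) :=
    cG.comp continuousOn_fst fun p hp => hp.1
  have hK : IsCompact K := (hCI.of_isClosed_subset ((c1.add (continuousOn_snd.smul
    (c2.sub c1))).norm.preimage_isClosed_of_isClosed hCI.isClosed isClosed_Iic)
    inter_subset_left).image continuous_fst
  have hn : ∀ x ∈ C, x ∉ K → ∀ s ∈ Icc (0 : ℝ) 1, 1 < ‖F x + s • (G x - F x)‖ :=
    fun x hx hK s hs => not_le.1 fun h => hK ⟨(x, s), ⟨⟨hx, hs⟩, h⟩, rfl⟩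
  have hKΩ : K ⊆ Ω := by
    rintro _ ⟨p, hp, rfl⟩
    exact by_contra fun h => absurd (hb _ ⟨hp.1.1, h⟩ _ hp.1.2) (not_lt.2 hp.2)
  have h0 : (0 : ℝ) ∈ Icc (0 : ℝ) 1 := ⟨le_rfl, zero_le_one⟩
  have h1 : (1 : ℝ) ∈ Icc (0 : ℝ) 1 := ⟨zero_le_one, le_rfl⟩
  obtain ⟨K1, χ, k1, k2, k3, k4, k5, k6⟩ := exists_cut hK hΩ hKΩ
  obtain ⟨K2, ψ, l1, l2, l3, l4, l5, -⟩ := exists_cut k1 hΩ k2
  set H : E → E := fun x => F x + χ x • (G x - F x) with hH
  have dH : ContDiffOn ℝ 1 H Ω := dF.add (k3.contDiffOn.smul (dG.sub dF))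
  obtain ⟨a1, a2⟩ := cut_diff l1 hΩ l2 l3 l5 (hT.diff.comp_contDiffOn dF)
  obtain ⟨b1, b2⟩ := cut_diff l1 hΩ l2 l3 l5 (hT.diff.comp_contDiffOn dH)
  have int : ∀ {h : E → E}, ContDiff ℝ 1 h → HasCompactSupport h →
      Integrable (fun x => (fderiv ℝ h x).det) μ := fun {h} hc hs =>
    (ContinuousLinearMap.continuous_det.comp
      (hc.continuous_fderiv one_ne_zero)).integrable_of_hasCompactSupport
      (HasCompactSupport.intro hs fun x hx => by
        obtain ⟨v, hv⟩ := exists_ne (0 : E)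
        exact det_eq_zero hv (by rw [fderiv_of_notMem_tsupport ℝ hx]; rfl))
  have key := integral_sub (int b1 b2) (int a1 a2)
  rw [null_lagr μ b1 b2, null_lagr μ a1 a2, sub_zero] at key
  rw [eq_comm, ← sub_eq_zero, ← integral_sub
    (jac_integrableOn μ hT hC hΩ hs cG dG fun x hx => by simpa using hb x hx 1 h1)
    (jac_integrableOn μ hT hC hΩ hs cF dF fun x hx => by simpa using hb x hx 0 h0),
    ← integral_indicator hΩ.measurableSet, ← key]
  refine integral_congr_ae (Eventually.of_forall fun x => ?_)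
  by_cases hx : x ∈ K1
  · have hx' := hΩ.mem_nhds (k2 hx)
    have e : ∀ {F : E → E}, ContDiffOn ℝ 1 F Ω →
        (fderiv ℝ (fun x => ψ x • (T ∘ F) x) x).det = jac T F x := fun {F} dF =>
      det_comp_eq hT ((dF.contDiffAt hx').differentiableAt one_ne_zero) (by
        filter_upwards [l4 x hx] with y hy
        rw [hy, one_smul]; rfl)
    simp only
    rw [indicator_of_mem (k2 hx), e dH, e dF]
    congr 1
    by_cases hxK : x ∈ K
    · refine jac_congr ?_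
      filter_upwards [k4 x hxK] with y hy
      simp [hH, hy]
    · rw [jac_zero hT (F := H) (hn x (hs (k2 hx)) hxK _ (k6 x)),
        jac_zero hT (by simpa using hn x (hs (k2 hx)) hxK 1 h1)]
  · have e : (fun x => ψ x • (T ∘ H) x) =ᶠ[𝓝 x] fun x => ψ x • (T ∘ F) x := by
      filter_upwards [k5 x hx] with y hy
      simp [hH, hy]
    simp only
    rw [e.fderiv_eq, sub_self]
    by_cases hxΩ : x ∈ Ω
    · have hxK : x ∉ K := fun h => by
        have := (k4 x h).self_of_nhds.symm.trans (k5 x hx).self_of_nhds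
        simp at this
      rw [indicator_of_mem hxΩ, jac_zero hT (by simpa using hn x (hs hxΩ) hxK 1 h1),
        jac_zero hT (by simpa using hn x (hs hxΩ) hxK 0 h0), sub_self]
    · rw [indicator_of_notMem hxΩ]

/-- `d` is the (unnormalised) degree of `Φ`. -/
def Deg (T : E → E) (C Ω : Set E) (Φ : E → E) (d : ℝ) : Prop :=
  ∃ (l : ℝ) (G : E → E), ContinuousOn G C ∧ ContDiffOn ℝ 1 G Ω ∧
    (∀ x ∈ C \ Ω, ‖G x - l • Φ x‖ + 1 < l * ‖Φ x‖) ∧ ∫ x in Ω, jac T G x ∂μ = d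

variable {μ}

theorem Deg.unique [Nontrivial E] (hT : IsT T) (hC : IsCompact C) (hΩ : IsOpen Ω) (hs : Ω ⊆ C)
    {Φ : E → E} {d d' : ℝ} (h : Deg μ T C Ω Φ d) (h' : Deg μ T C Ω Φ d') : d = d' := by
  obtain ⟨l, G, c, dG, hb, rfl⟩ := h
  obtain ⟨l', G', c', dG', hb', rfl⟩ := h'
  refine jac_inv μ hT hC hΩ hs c dG c' dG' fun x hx s hs => ?_
  have e : ((1 - s) * l + s * l') • Φ x = G x + s • (G' x - G x) -
      ((1 - s) • (G x - l • Φ x) + s • (G' x - l' • Φ x)) := by module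
  have h1 := norm_sub_le (G x + s • (G' x - G x))
    ((1 - s) • (G x - l • Φ x) + s • (G' x - l' • Φ x))
  have h2 := norm_add_le ((1 - s) • (G x - l • Φ x)) (s • (G' x - l' • Φ x))
  rw [← e, norm_smul] at h1
  rw [norm_smul, norm_smul, Real.norm_of_nonneg hs.1, Real.norm_of_nonneg (sub_nonneg.2 hs.2)] at h2
  have h3 := mul_le_mul_of_nonneg_right (Real.le_norm_self ((1 - s) * l + s * l'))
    (norm_nonneg (Φ x))
  have h4 := hb x hx
  have h5 := hb' x hx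
  rcases eq_or_lt_of_le hs.1 with h | h
  · subst h; simp only [zero_smul, add_zero] at *; nlinarith
  · nlinarith [mul_lt_mul_of_pos_left h5 h, mul_le_mul_of_nonneg_left h4.le (sub_nonneg.2 hs.2)]

omit [MeasurableSpace E] [BorelSpace E] in
lemma exists_approx {S : Set E} (hS : IsCompact S) {Φ : E → E} (hc : ContinuousOn Φ S)
    (h0 : ∀ x ∈ S, Φ x ≠ 0) : ∃ (l : ℝ) (G : E → E), ContDiff ℝ 1 G ∧
      ∀ x ∈ S, ‖G x - l • Φ x‖ + 1 < l * ‖Φ x‖ := by
  obtain ⟨r, hr, hm⟩ := hS.exists_forall_le' hc.norm fun x hx => norm_pos_iff.2 (h0 x hx)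
  obtain ⟨g, hg⟩ := exists_contMDiffMap_forall_mem_convex_of_local_const 𝓘(ℝ, E) (n := 1)
    (t := fun x => {y | x ∈ S → y ∈ Metric.ball ((2 / r) • Φ x) 1}) (fun x => by
      by_cases hx : x ∈ S
      · simpa [hx, Metric.ball] using convex_ball ((2 / r) • Φ x) 1
      · simpa [hx] using convex_univ) fun x => by
      by_cases hx : x ∈ S
      · refine ⟨(2 / r) • Φ x, ?_⟩
        have := ((hc x hx).const_smul (2 / r)).eventually (Metric.ball_mem_nhds _ one_pos)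
        rw [eventually_nhdsWithin_iff] at this
        filter_upwards [this] with y hy h using Metric.mem_ball_comm.1 (hy h)
      · refine ⟨0, ?_⟩
        filter_upwards [hS.isClosed.isOpen_compl.mem_nhds hx] with y hy h using absurd h hy
  refine ⟨2 / r, g, g.contMDiff.contDiff, fun x hx => ?_⟩
  have h1 := mem_ball_iff_norm.1 (hg x hx)
  have h2 : 2 / r * r ≤ 2 / r * ‖Φ x‖ := mul_le_mul_of_nonneg_left (hm x hx) (by positivity)
  rw [div_mul_cancel₀ _ hr.ne'] at h2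
  linarith

theorem exists_deg (hC : IsCompact C) (hΩ : IsOpen Ω) {Φ : E → E} (hc : ContinuousOn Φ C)
    (h0 : ∀ x ∈ C \ Ω, Φ x ≠ 0) : ∃ d, Deg μ T C Ω Φ d := by
  obtain ⟨l, G, h1, h2⟩ := exists_approx (hC.diff hΩ) (hc.mono diff_subset) h0
  exact ⟨_, l, G, h1.continuous.continuousOn, h1.contDiffOn, h2, rfl⟩

theorem deg_zero (hT : IsT T) (hC : IsCompact C) (hΩ : IsOpen Ω) (hs : Ω ⊆ C) {Φ : E → E}
    (hc : ContinuousOn Φ C) (h0 : ∀ x ∈ C, Φ x ≠ 0) : Deg μ T C Ω Φ 0 := by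
  obtain ⟨l, G, h1, h2⟩ := exists_approx hC hc h0
  refine ⟨l, G, h1.continuous.continuousOn, h1.contDiffOn, fun x hx => h2 x hx.1,
    setIntegral_eq_zero_of_forall_eq_zero fun x hx => jac_zero hT ?_⟩
  have h3 := norm_sub_le (G x) (G x - l • Φ x)
  rw [sub_sub_cancel, norm_smul] at h3
  nlinarith [h2 x (hs hx), mul_le_mul_of_nonneg_right (Real.le_norm_self l) (norm_nonneg (Φ x))]

theorem Deg.congr {Φ Ψ : E → E} {d : ℝ} (h : Deg μ T C Ω Φ d) (e : ∀ x ∈ C, Φ x = Ψ x) :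
    Deg μ T C Ω Ψ d := by
  obtain ⟨l, G, c, dG, hb, h⟩ := h
  exact ⟨l, G, c, dG, fun x hx => e x hx.1 ▸ hb x hx, h⟩

theorem deg_self {Φ : E → E} (hc : ContinuousOn Φ C) (hd : ContDiffOn ℝ 1 Φ Ω) {l : ℝ}
    (hb : ∀ x ∈ C \ Ω, 1 < l * ‖Φ x‖) :
    Deg μ T C Ω Φ (∫ x in Ω, jac T (fun x => l • Φ x) x ∂μ) :=
  ⟨l, _, hc.const_smul l, hd.const_smul l, fun x hx => by simpa using hb x hx, rfl⟩

theorem Deg.homotopy [Nontrivial E] (hT : IsT T) (hC : IsCompact C) (hΩ : IsOpen Ω) (hs : Ω ⊆ C)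
    {P : Type*} [TopologicalSpace P] [PreconnectedSpace P] {Φ : P → E → E}
    (hc : ContinuousOn (fun z : P × E => Φ z.1 z.2) (univ ×ˢ C))
    (h0 : ∀ p, ∀ x ∈ C \ Ω, Φ p x ≠ 0) {p q : P} {d : ℝ} (h : Deg μ T C Ω (Φ p) d) :
    Deg μ T C Ω (Φ q) d := by
  have hc' : ∀ p, ContinuousOn (Φ p) C := fun p =>
    hc.comp (Continuous.prodMk_right p).continuousOn fun x hx => ⟨trivial, hx⟩
  choose f hf using fun p => exists_deg (μ := μ) (T := T) hC hΩ (hc' p) (h0 p)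
  have hl : IsLocallyConstant f := (IsLocallyConstant.iff_eventually_eq f).2 fun p => by
    obtain ⟨l, G, c, dG, hb, e⟩ := hf p
    have : ∀ᶠ p' in 𝓝 p, ∀ x ∈ C \ Ω, x ∈ C → ‖G x - l • Φ p' x‖ + 1 < l * ‖Φ p' x‖ := by
      refine (hC.diff hΩ).eventually_forall_of_forall_eventually fun y hy => ?_
      have c1 : ContinuousOn (fun z : P × E => G z.2) (univ ×ˢ C) :=
        c.comp continuousOn_snd fun z hz => hz.2
      have c2 := ((continuousOn_const (c := l)).mul hc.norm).sub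
        ((c1.sub (hc.const_smul l)).norm.add (continuousOn_const (c := (1 : ℝ))))
      have := (c2 (p, y) ⟨trivial, hy.1⟩).eventually (lt_mem_nhds (sub_pos.2 (hb y hy)))
      rw [eventually_nhdsWithin_iff] at this
      filter_upwards [this] with z hz h using sub_pos.1 (hz ⟨trivial, h⟩)
    filter_upwards [this] with p' hp'
    exact (hf p').unique hT hC hΩ hs ⟨l, G, c, dG, fun x hx => hp' x hx hx.1, e⟩
  rw [h.unique hT hC hΩ hs (hf p), hl.apply_eq_of_preconnectedSpace p q]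
  exact hf q

end Vale.Agent.P174
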