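import Vale.Agent.P174.Defs

namespace Vale.Agent.P174

open scoped InnerProductSpace

universe u

/-- exponent vector on the free group on coefficients `κ` and variables `Fin m` -/
def expo' (κ : Type u) (m : ℕ) : FreeGroup (κ ⊕ Fin m) →* Multiplicative (Fin m → ℤ) :=
  FreeGroup.lift (Sum.elim (fun _ => 1) fun j => Multiplicative.ofAdd (Pi.single j 1))

/-- Gerstenhaber-Rothaus in families over an even dimensional sphere (WP GR, helper4). -/
def GRStmt : Prop :=
  ∀ (A : Type u) [CStarAlgebra A] [FiniteDimensional ℂ A] (Y : Type u) [NormedAddCommGroup Y]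
    [NormedSpace ℝ Y] [FiniteDimensional ℝ Y] (_ : Odd (Module.finrank ℝ Y))
    (κ : Type u) (m D : ℕ) (_ : 0 < D) (w : Fin m → FreeGroup (κ ⊕ Fin m))
    (_ : ∀ i, expo' κ m (w i) = Multiplicative.ofAdd (Pi.single i (D : ℤ)))
    (c : ℝ → Y → κ → unitary A) (_ : ∀ k, Continuous fun p : ℝ × Y => c p.1 p.2 k)
    (_ : ∀ y k, c 0 y k = 1) (σ : Y → (Fin m → unitary A) → Y)
    (_ : Continuous fun p : Y × (Fin m → unitary A) => σ p.1 p.2),
    ∃ (a : Y) (x : Fin m → unitary A) (ρ : ℝ), 1 ≤ ‖a‖ ∧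
      (∀ i, FreeGroup.lift (Sum.elim (c 1 a) x) (w i) = 1) ∧ σ a x = ρ • a

/-- coefficient space -/
abbrev V {G : Type u} (B : Finset G) (t : ℕ) : Type u := EuclideanSpace ℂ (B × Option (Fin t))

open Classical in
/-- basis vector of `V B t`, zero when `b ∉ B` -/
noncomputable def dl {G : Type u} (B : Finset G) {t : ℕ} (b : G) (i : Option (Fin t)) : V B t :=
  if h : b ∈ B then EuclideanSpace.single (⟨b, h⟩, i) 1 else 0

/-- `L` is a self-adjoint square root of a translation invariant Gram matrix whose `none`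
component is regular. -/
structure Gram {G : Type u} [Group G] (B : Finset G) (t : ℕ) (L : V B t →L[ℂ] V B t) : Prop where
  sa : IsSelfAdjoint L
  inv : ∀ g b b' : G, b ∈ B → b' ∈ B → g * b ∈ B → g * b' ∈ B → ∀ i j,
    ⟪L (dl B (g * b) i), L (dl B (g * b') j)⟫_ℂ = ⟪L (dl B b i), L (dl B b' j)⟫_ℂ
  one : ∀ b ∈ B, ‖L (dl B b none)‖ = 1
  orth : ∀ b ∈ B, ∀ b' ∈ B, b ≠ b' → ⟪L (dl B b none), L (dl B b' none)⟫_ℂ = 0

/-- Continuous selection of Gram data nearly killing given vectors (WP S). -/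
def SelStmt : Prop :=
  ∀ (G : Type u) [Group G] (B : Finset G) (_ : (1 : G) ∈ B) (t : ℕ) (ε : ℝ) (_ : 0 < ε),
    ∃ L : (Fin t → V B t) → (V B t →L[ℂ] V B t), Continuous L ∧ ∀ a, Gram B t (L a) ∧
      ∑ τ, ‖L a (a τ)‖ ^ 2 < ε ^ 2 * (1 + ∑ τ, ‖L a (dl B 1 (some τ))‖ ^ 2)

/-- The core statement (WP C, from `GRStmt` and `SelStmt`): coefficients are involutions
`s k` of `G`; a word in the coefficients lying in the normal closure of the equations and of the
relations of `G` is trivial in `G`. -/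
def CoreStmt : Prop :=
  ∀ (G : Type u) [Group G] (κ : Type u) (s : κ → G) (_ : ∀ k, s k * s k = 1) (m D : ℕ)
    (_ : 0 < D) (w : Fin m → FreeGroup (κ ⊕ Fin m))
    (_ : ∀ i, expo' κ m (w i) = Multiplicative.ofAdd (Pi.single i (D : ℤ))) (g : FreeGroup κ),
    FreeGroup.map Sum.inl g ∈ Subgroup.normalClosure (Set.range w ∪
      FreeGroup.map Sum.inl '' ((FreeGroup.lift s).ker : Set (FreeGroup κ))) →
    FreeGroup.lift s g = 1

/-- The final statement (WP R, from `CoreStmt`). -/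
def FinalStmt : Prop :=
  ∀ (G : Type u) [Group G] (m n : ℕ) (w : Fin m → Monoid.Coprod G (FreeGroup (Fin n)))
    (_ : (expoMatrix w).rank = m), Function.Injective
      ((QuotientGroup.mk' (Subgroup.normalClosure (Set.range w))).comp Monoid.Coprod.inl)

end Vale.Agent.P174
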