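import Vale.Agent.P174.Words
import Vale.Agent.P174.Stmts

namespace Vale.Agent.P174

open MeasureTheory Set Filter Topology Module

universe u

lemma lift_contOn {X G κ : Type*} [TopologicalSpace X] [Group G] [TopologicalSpace G]
    [IsTopologicalGroup G] {s : Set X} {f : X → κ → G} (hf : ∀ k, ContinuousOn (fun x => f x k) s)
    (w : FreeGroup κ) : ContinuousOn (fun x => FreeGroup.lift (f x) w) s := by
  induction w using FreeGroup.induction_on with
  | C1 => simpa using continuousOn_const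
  | of j => simpa using hf j
  | inv_of j h => simp only [map_inv]; exact h.inv
  | mul a b ha hb => simp only [map_mul]; exact ha.mul hb

section
variable {A : Type*} [CStarAlgebra A] {Y : Type*} [NormedAddCommGroup Y] [InnerProductSpace ℝ Y]
  {κ : Type u} {m : ℕ} (p : Polar A)

lemma u_cont (j : Fin m) :
    ContinuousOn (fun z : (Fin m → A) × Y => p.u (z.1 j)) (CC p m Y) := by
  have := (reg_of p (Y := Y) fun z hz => ev_diff p (FreeGroup.of j) hz).c
  simp only [ev, FreeGroup.lift_apply_of] at this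
  exact IsInducing.subtypeVal.continuousOn_iff.2 this

noncomputable def HH (w : Fin m → FreeGroup (κ ⊕ Fin m)) (c : ℝ → Y → κ → unitary A)
    (S : (Fin m → A) × Y → Y) (s : unitInterval) (z : (Fin m → A) × Y) : (Fin m → A) × Y :=
  FF p (fun i => FreeGroup.lift (Sum.elim (c s z.2) fun j => p.u (z.1 j)) (w i)) z -
    (0, (s : ℝ) • S z)

lemma HH_cont (w : Fin m → FreeGroup (κ ⊕ Fin m)) {c : ℝ → Y → κ → unitary A}
    (hc : ∀ k, Continuous fun p : ℝ × Y => c p.1 p.2 k) {S : (Fin m → A) × Y → Y}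
    (hS : ContinuousOn S (CC p m Y)) :
    ContinuousOn (fun z : unitInterval × (Fin m → A) × Y => HH p w c S z.1 z.2)
      (univ ×ˢ CC p m Y) := by
  have k1 : ∀ i, ContinuousOn (fun z : unitInterval × (Fin m → A) × Y => p.h (z.2.1 i))
      (univ ×ˢ CC p m Y) := fun i =>
    (reg_of p fun z hz => h_diff p i hz).c.comp continuousOn_snd fun z hz => hz.2
  have k2 : ∀ i, ContinuousOn (fun z : unitInterval × (Fin m → A) × Y =>
      FreeGroup.lift (Sum.elim (c z.1 z.2.2) fun j => p.u (z.2.1 j)) (w i))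
      (univ ×ˢ CC p m Y) := fun i => by
    refine lift_contOn ?_ (w i)
    rintro (j | j)
    · exact ((hc j).comp (f := fun z : unitInterval × (Fin m → A) × Y => ((z.1 : ℝ), z.2.2))
        (by fun_prop)).continuousOn
    · exact (u_cont p j).comp continuousOn_snd fun z hz => hz.2
  have k3 : Continuous fun z : unitInterval × (Fin m → A) × Y => (‖z.2.2‖ ^ 2 - 2) • z.2.2 := by
    fun_prop
  have k4 : Continuous fun z : unitInterval × (Fin m → A) × Y => (z.1 : ℝ) := by fun_prop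
  exact ((continuousOn_pi.2 fun i => ((continuous_subtype_val.comp_continuousOn (k2 i)).mul
    (k1 i)).sub continuousOn_const).prodMk k3.continuousOn).sub (continuousOn_const.prodMk
      (k4.continuousOn.smul (hS.comp continuousOn_snd fun z hz => hz.2)))

lemma HH_zero {w : Fin m → FreeGroup (κ ⊕ Fin m)} {c : ℝ → Y → κ → unitary A}
    {S : (Fin m → A) × Y → Y} {s : unitInterval} {z : (Fin m → A) × Y} (hz : z ∈ CC p m Y)
    (h : HH p w c S s z = 0) : (∀ i, star (z.1 i) * z.1 i = 1 ∧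
      FreeGroup.lift (Sum.elim (c s z.2) fun j => p.u (z.1 j)) (w i) = 1) ∧
      (‖z.2‖ ^ 2 - 2) • z.2 = (s : ℝ) • S z := by
  refine ⟨fun i => ?_, sub_eq_zero.1 (congrArg Prod.snd h)⟩
  have a1 : (FreeGroup.lift (Sum.elim (c s z.2) fun j => p.u (z.1 j)) (w i) : unitary A) *
      p.h (z.1 i) = 1 := by
    simpa [HH, FF, sub_eq_zero] using congrFun (congrArg Prod.fst h) i
  have a2 := sq_eq p (hz.1 i) (FreeGroup.lift (Sum.elim (c s z.2) fun j => p.u (z.1 j)) (w i))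
  rw [a1, star_one, one_mul] at a2
  rw [p.one _ a2.symm, mul_one] at a1
  exact ⟨a2.symm, Subtype.ext a1⟩

omit [InnerProductSpace ℝ Y] in
lemma CC_norm {z : (Fin m → A) × Y} (hz : z ∈ CC p m Y) : 1 ≤ ‖z.2‖ := by
  nlinarith [(abs_le.1 hz.2).1, norm_nonneg z.2]

lemma HH_ne (w : Fin m → FreeGroup (κ ⊕ Fin m)) (c : ℝ → Y → κ → unitary A)
    {S : (Fin m → A) × Y → Y} (hS : ∀ z ∈ CC p m Y, ‖S z‖ < 1) (s : unitInterval) :
    ∀ z ∈ CC p m Y \ OO p m Y, HH p w c S s z ≠ 0 := fun z hz h => by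
  obtain ⟨a1, a2⟩ := HH_zero p hz.1 h
  refine hz.2 ⟨fun i => by simpa [(a1 i).1] using p.r0, lt_of_le_of_ne hz.1.2 fun a3 => ?_⟩
  have a4 := congrArg norm a2
  rw [norm_smul, norm_smul, Real.norm_eq_abs, a3, Real.norm_of_nonneg s.2.1] at a4
  nlinarith [CC_norm p hz.1, hS z hz.1, s.2.1, s.2.2, norm_nonneg (S z)]

end

lemma HH_exists {A : Type*} [CStarAlgebra A] [FiniteDimensional ℂ A] {Y : Type*}
    [NormedAddCommGroup Y] [InnerProductSpace ℝ Y] [FiniteDimensional ℝ Y]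
    (hY : Odd (Module.finrank ℝ Y)) {κ : Type u} {m D : ℕ} (p : Polar A)
    {w : Fin m → FreeGroup (κ ⊕ Fin m)}
    (hw : ∀ i, expo' κ m (w i) = Multiplicative.ofAdd (Pi.single i ((D + 1 : ℕ) : ℤ)))
    {c : ℝ → Y → κ → unitary A} (hc : ∀ k, Continuous fun p : ℝ × Y => c p.1 p.2 k)
    (c0 : ∀ y k, c 0 y k = 1) {S : (Fin m → A) × Y → Y} (cS : ContinuousOn S (CC p m Y))
    (hS : ∀ z ∈ CC p m Y, ‖S z‖ < 1) : ∃ z ∈ CC p m Y, HH p w c S 1 z = 0 := by
  haveI : Nontrivial Y := Module.nontrivial_of_finrank_pos (R := ℝ) hY.pos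
  letI : MeasurableSpace ((Fin m → A) × Y) := borel _
  haveI : BorelSpace ((Fin m → A) × Y) := ⟨rfl⟩
  obtain ⟨T, hT⟩ := exists_T (E := (Fin m → A) × Y)
  obtain ⟨d, d0, hd⟩ := PW_pos p (μ := Measure.addHaar) hT hY D
  have hC := CC_compact p (m := m) (Y := Y)
  let φ : FreeGroup (κ ⊕ Fin m) →* FreeGroup (Fin m) :=
    FreeGroup.lift (Sum.elim (fun _ => 1) FreeGroup.of)
  have e1 : (ex m).comp φ = expo' κ m := FreeGroup.ext_hom _ _ fun k => by
    rcases k with k | k <;> simp [φ, ex, expo']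
  have h1 := PW_perm p hT (v' := fun i => φ (w i)) (fun i => by
    rw [← MonoidHom.comp_apply, e1, hw, map_pow, ex, FreeGroup.lift_apply_of, ← ofAdd_nsmul,
      ← Pi.single_smul]
    simp) hd
  have cΦ := HH_cont p w hc cS
  have h0 : Deg Measure.addHaar T (CC p m Y) (OO p m Y) (HH p w c S 0) d := h1.congr fun z _ => by
    have : (FreeGroup.lift fun j => p.u (z.1 j)).comp φ =
        FreeGroup.lift (Sum.elim (c 0 z.2) fun j => p.u (z.1 j)) :=
      FreeGroup.ext_hom _ _ fun k => by rcases k with k | k <;> simp [φ, c0]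
    simp only [HH, PW, ev, ← MonoidHom.comp_apply, this]
    simp [Prod.mk_zero_zero]
  have h2 := Deg.homotopy hT hC (OO_open p) (OO_sub p) (Φ := HH p w c S) cΦ
    (HH_ne p w c hS) (q := 1) h0
  by_contra hn
  have c1 : ContinuousOn (fun z => HH p w c S 1 z) (CC p m Y) :=
    ContinuousOn.comp (g := fun z : unitInterval × (Fin m → A) × Y => HH p w c S z.1 z.2)
      (f := fun z => (1, z)) cΦ (Continuous.prodMk_right 1).continuousOn fun x hx => ⟨trivial, hx⟩
  exact d0.ne' (h2.unique hT hC (OO_open p) (OO_sub p) (deg_zero hT hC (OO_open p) (OO_sub p)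
    c1 fun z hz h => hn ⟨z, hz, h⟩))

theorem gr_inner (A : Type*) [CStarAlgebra A] [FiniteDimensional ℂ A] (Y : Type*)
    [NormedAddCommGroup Y] [InnerProductSpace ℝ Y] [FiniteDimensional ℝ Y]
    (hY : Odd (Module.finrank ℝ Y)) (κ : Type u) (m D : ℕ) (hD : 0 < D)
    (w : Fin m → FreeGroup (κ ⊕ Fin m))
    (hw : ∀ i, expo' κ m (w i) = Multiplicative.ofAdd (Pi.single i (D : ℤ)))
    (c : ℝ → Y → κ → unitary A) (hc : ∀ k, Continuous fun p : ℝ × Y => c p.1 p.2 k)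
    (c0 : ∀ y k, c 0 y k = 1) (σ : Y → (Fin m → unitary A) → Y)
    (hσ : Continuous fun p : Y × (Fin m → unitary A) => σ p.1 p.2) :
    ∃ (a : Y) (x : Fin m → unitary A) (ρ : ℝ), 1 ≤ ‖a‖ ∧
      (∀ i, FreeGroup.lift (Sum.elim (c 1 a) x) (w i) = 1) ∧ σ a x = ρ • a := by
  obtain ⟨p⟩ := exists_polar (A := A)
  obtain ⟨D, rfl⟩ := Nat.exists_eq_succ_of_ne_zero hD.ne'
  have cs : ContinuousOn (fun z : (Fin m → A) × Y => σ z.2 fun j => p.u (z.1 j)) (CC p m Y) :=
    hσ.comp_continuousOn (f := fun z : (Fin m → A) × Y => (z.2, fun j => p.u (z.1 j)))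
      (continuousOn_snd.prodMk (continuousOn_pi.2 (u_cont p)))
  obtain ⟨M, hM⟩ := (CC_compact p).exists_bound_of_continuousOn cs
  set Λ : ℝ := |M| + 1 with hΛ
  have Λ0 : 0 < Λ := by positivity
  obtain ⟨z, hz, h⟩ := HH_exists hY p hw hc c0
    (S := fun z => Λ⁻¹ • σ z.2 fun j => p.u (z.1 j)) (cs.const_smul Λ⁻¹) fun z hz => by
      rw [norm_smul, Real.norm_of_nonneg (inv_pos.2 Λ0).le, inv_mul_lt_iff₀ Λ0]
      linarith [hM z hz, le_abs_self M]
  obtain ⟨a1, a2⟩ := HH_zero p hz h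
  refine ⟨z.2, fun j => p.u (z.1 j), Λ * (‖z.2‖ ^ 2 - 2), CC_norm p hz, fun i => (a1 i).2, ?_⟩
  rw [mul_smul, a2]
  simp [smul_smul, Λ0.ne']

theorem gr : GRStmt.{u} := by
  intro A _ _ Y _ _ _ hY κ m D hD w hw c hc c0 σ hσ
  let e0 : Y ≃L[ℝ] EuclideanSpace ℝ (Fin (finrank ℝ Y)) :=
    ContinuousLinearEquiv.ofFinrankEq (by simp)
  set b : ℝ := ‖(e0 : Y →L[ℝ] EuclideanSpace ℝ (Fin (finrank ℝ Y)))‖ + 1 with hb
  have b0 : 0 < b := by positivity
  let e : EuclideanSpace ℝ (Fin (finrank ℝ Y)) ≃L[ℝ] Y :=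
    e0.symm.trans (ContinuousLinearEquiv.smulLeft (Units.mk0 b b0.ne'))
  have he : ∀ z, ‖z‖ ≤ ‖e z‖ := fun z => by
    have := (e0 : Y →L[ℝ] EuclideanSpace ℝ (Fin (finrank ℝ Y))).le_opNorm (e0.symm z)
    simp only [ContinuousLinearEquiv.coe_coe, ContinuousLinearEquiv.apply_symm_apply] at this
    have h2 : ‖e z‖ = b * ‖e0.symm z‖ := by simp [e, Units.smul_def, norm_smul, abs_of_pos b0]
    rw [h2]; nlinarith [norm_nonneg (e0.symm z)]
  obtain ⟨a, x, ρ, h1, h2, h3⟩ := gr_inner A (EuclideanSpace ℝ (Fin (finrank ℝ Y)))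
    (by simpa using hY) κ m D hD w hw (fun s y => c s (e y))
    (fun k => (hc k).comp (f := fun p : ℝ × EuclideanSpace ℝ (Fin (finrank ℝ Y)) => (p.1, e p.2))
      (by fun_prop)) (fun y k => c0 _ k) (fun y x => e.symm (σ (e y) x))
    (e.symm.continuous.comp (hσ.comp (f := fun p : EuclideanSpace ℝ (Fin (finrank ℝ Y)) ×
      (Fin m → unitary A) => (e p.1, p.2)) (by fun_prop)))
  exact ⟨e a, x, ρ, h1.trans (he a), h2, by rw [← map_smul, ← h3, e.apply_symm_apply]⟩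

end Vale.Agent.P174
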