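import Mathlib

namespace Vale.Agent.P174

open MeasureTheory Set Filter Topology Module

variable {E : Type*} [NormedAddCommGroup E] [NormedSpace ℝ E] [FiniteDimensional ℝ E]

lemma det_ne_zero {M : E →L[ℝ] E} (h : ∀ v, M v = 0 → v = 0) : M.det ≠ 0 := by
  rw [ContinuousLinearMap.det, Ne, LinearMap.det_eq_zero_iff_ker_ne_bot, not_not,
    LinearMap.ker_eq_bot']
  exact h

lemma det_eq_zero {M : E →L[ℝ] E} {v : E} (hv : v ≠ 0) (h : M v = 0) : M.det = 0 := by
  rw [ContinuousLinearMap.det, LinearMap.det_eq_zero_iff_ker_ne_bot, Ne, LinearMap.ker_eq_bot']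
  exact fun H => hv (H v h)

lemma det_nonneg_of_path (P : ℝ → E →L[ℝ] E) (hP : Continuous P) (h0 : 0 < (P 0).det)
    (h : ∀ s ∈ Ico (0 : ℝ) 1, ∀ v, P s v = 0 → v = 0) : 0 ≤ (P 1).det := by
  by_contra hn
  push Not at hn
  have hc : Continuous fun s => (P s).det := ContinuousLinearMap.continuous_det.comp hP
  obtain ⟨s, hs, h1⟩ := intermediate_value_Ico' zero_le_one hc.continuousOn
    (show (0 : ℝ) ∈ Ioc (P 1).det (P 0).det from ⟨hn, h0.le⟩)
  exact det_ne_zero (h s hs) h1

lemma det_pos_of_path (P : ℝ → E →L[ℝ] E) (hP : Continuous P) (h0 : 0 < (P 0).det)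
    (h : ∀ s ∈ Icc (0 : ℝ) 1, ∀ v, P s v = 0 → v = 0) : 0 < (P 1).det :=
  lt_of_le_of_ne (det_nonneg_of_path P hP h0 fun s hs => h s (Ico_subset_Icc_self hs))
    (det_ne_zero (h 1 ⟨zero_le_one, le_rfl⟩)).symm

lemma det_one' : (1 : E →L[ℝ] E).det = 1 := by
  rw [ContinuousLinearMap.det]; exact map_one LinearMap.det

lemma det_smul' (s : ℝ) (M : E →L[ℝ] E) : (s • M).det = s ^ finrank ℝ E * M.det := by
  rw [ContinuousLinearMap.det, ContinuousLinearMap.det]; exact LinearMap.det_smul s _

lemma det_one_add_pos {M : E →L[ℝ] E} (hM : ‖M‖ < 1) : 0 < (1 + M).det := by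
  have := det_pos_of_path (fun s => 1 + s • M) (by fun_prop) (by simp [det_one']) fun s hs v hv => by
    have h1 : v = -(s • M v) := eq_neg_of_add_eq_zero_left (by simpa using hv)
    have h2 : ‖v‖ ≤ ‖M‖ * ‖v‖ := by
      calc ‖v‖ = ‖-(s • M v)‖ := by rw [← h1]
        _ = s * ‖M v‖ := by rw [norm_neg, norm_smul, Real.norm_of_nonneg hs.1]
        _ ≤ 1 * (‖M‖ * ‖v‖) := mul_le_mul hs.2 (M.le_opNorm v) (norm_nonneg _) zero_le_one
        _ = _ := one_mul _
    by_contra h
    nlinarith [norm_pos_iff.2 h]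
  simpa using this

lemma exists_nodes [Nontrivial E] (R : ℝ) : ∃ (l : Fin (finrank ℝ E + 1) → ℝ)
    (s : Fin (finrank ℝ E + 1) → ℝ), (∀ j, R < s j) ∧ ∀ M : E →L[ℝ] E,
      M.det = ∑ j, l j * ((s j • (1 : E →L[ℝ] E) + M).det - s j ^ finrank ℝ E) := by
  set n := finrank ℝ E
  let s : Fin (n + 1) → ℝ := fun j => R + 1 + j
  have hs : Set.InjOn s (Finset.univ : Finset (Fin (n + 1))) := fun a _ b _ h => by
    have : ((a : ℕ) : ℝ) = (b : ℕ) := by simpa [s] using h
    exact Fin.ext (by exact_mod_cast this)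
  refine ⟨fun j => (Lagrange.basis Finset.univ s j).eval 0, s, fun j => ?_, fun M => ?_⟩
  · have : (0 : ℝ) ≤ (j : ℕ) := Nat.cast_nonneg _
    simp only [s]; linarith
  set q : Polynomial ℝ := (-(M : E →ₗ[ℝ] E)).charpoly - Polynomial.X ^ n with hq
  have hd : q.degree < (Finset.univ : Finset (Fin (n + 1))).card := by
    rw [Finset.card_univ, Fintype.card_fin]
    refine lt_of_le_of_lt (Polynomial.degree_sub_le _ _) (max_lt ?_ ?_)
    · refine lt_of_le_of_lt Polynomial.degree_le_natDegree ?_
      rw [LinearMap.charpoly_natDegree]; exact_mod_cast Nat.lt_succ_self n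
    · rw [Polynomial.degree_X_pow]; exact_mod_cast Nat.lt_succ_self n
  have he : ∀ t : ℝ, q.eval t = (t • (1 : E →L[ℝ] E) + M).det - t ^ n := fun t => by
    rw [hq, Polynomial.eval_sub, LinearMap.eval_charpoly, ContinuousLinearMap.det]
    simp [Algebra.algebraMap_eq_smul_one]
  have h1 := congrArg (Polynomial.eval 0) (Lagrange.eq_interpolate hs hd)
  rw [he, Lagrange.interpolate_apply, Polynomial.eval_finset_sum] at h1
  simp only [Polynomial.eval_mul, Polynomial.eval_C, he] at h1
  rw [zero_smul, zero_add, zero_pow (finrank_pos (R := ℝ) (M := E)).ne', sub_zero] at h1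
  rw [h1]
  exact Finset.sum_congr rfl fun j _ => mul_comm _ _

variable [MeasurableSpace E] [BorelSpace E] (μ : Measure E) [μ.IsAddHaarMeasure]

lemma vol_small {h : E → E} (hc : ContDiff ℝ 1 h) (hs : HasCompactSupport h)
    (hb : ∀ x, ‖fderiv ℝ h x‖ ≤ 1 / 2) : ∫ x, ((1 + fderiv ℝ h x).det - 1) ∂μ = 0 := by
  have hd := hc.differentiable one_ne_zero
  have hL : LipschitzWith (1 / 2 : NNReal) h :=
    lipschitzWith_of_nnnorm_fderiv_le hd fun x => by exact_mod_cast hb x
  have hA : ApproximatesLinearOn (fun x => x + h x)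
      (ContinuousLinearEquiv.refl ℝ E : E →L[ℝ] E) univ (1 / 2) := fun x _ y _ => by
    have := hL.dist_le_mul x y
    rw [dist_eq_norm, dist_eq_norm] at this
    have e : x + h x - (y + h y) - (ContinuousLinearEquiv.refl ℝ E : E →L[ℝ] E) (x - y) =
        h x - h y := by simp; abel
    rw [e]; exact this
  have hN : Subsingleton E ∨ (1 / 2 : NNReal) <
      ‖((ContinuousLinearEquiv.refl ℝ E).symm : E →L[ℝ] E)‖₊⁻¹ := by
    rcases subsingleton_or_nontrivial E with H | H
    · exact Or.inl H
    · right; simp; norm_num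
  have hinj : Function.Injective fun x => x + h x := injOn_univ.1 (hA.injOn hN)
  have hsur : Function.Surjective fun x => x + h x := hA.surjective hN
  have him : (fun x => x + h x) '' tsupport h = tsupport h := by
    ext y
    constructor
    · rintro ⟨x, hx, rfl⟩
      by_contra hy
      have : x + h x = x := hinj (by simp [image_eq_zero_of_notMem_tsupport hy])
      exact hy (by simpa only [this] using hx)
    · intro hy
      obtain ⟨x, rfl⟩ := hsur y
      refine ⟨x, by_contra fun hx => hx ?_, rfl⟩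
      simpa [image_eq_zero_of_notMem_tsupport hx] using hy
  have hm : MeasurableSet (tsupport h) := (isClosed_tsupport h).measurableSet
  have h1 := integral_image_eq_integral_abs_det_fderiv_smul μ hm
    (f := fun x => x + h x) (f' := fun x => 1 + fderiv ℝ h x)
    (fun x _ => ((hasFDerivAt_id x).add (hd x).hasFDerivAt).hasFDerivWithinAt) hinj.injOn
    (fun _ => (1 : ℝ))
  rw [him] at h1
  have hcont : Continuous fun x => (1 + fderiv ℝ h x).det :=
    ContinuousLinearMap.continuous_det.comp (continuous_const.add (hc.continuous_fderiv one_ne_zero))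
  rw [← setIntegral_eq_integral_of_forall_compl_eq_zero (s := tsupport h) fun x hx => by
    rw [fderiv_of_notMem_tsupport ℝ hx]; simp [det_one'],
    integral_sub (hcont.continuousOn.integrableOn_compact hs)
      (continuous_const.continuousOn.integrableOn_compact hs), h1, sub_eq_zero]
  refine integral_congr_ae (Eventually.of_forall fun x => ?_)
  simp [abs_of_pos (det_one_add_pos ((hb x).trans_lt (by norm_num)))]

theorem null_lagr [Nontrivial E] {h : E → E} (hc : ContDiff ℝ 1 h) (hs : HasCompactSupport h) :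
    ∫ x, (fderiv ℝ h x).det ∂μ = 0 := by
  have hf := hc.continuous_fderiv one_ne_zero
  obtain ⟨B, hB⟩ := hf.bounded_above_of_compact_support (hs.fderiv ℝ)
  have hB0 : 0 ≤ B := (norm_nonneg _).trans (hB 0)
  obtain ⟨l, s, hR, hM⟩ := exists_nodes (E := E) (2 * B)
  have key : ∀ j, Integrable (fun x => (s j • (1 : E →L[ℝ] E) + fderiv ℝ h x).det
      - s j ^ finrank ℝ E) μ ∧
      ∫ x, ((s j • (1 : E →L[ℝ] E) + fderiv ℝ h x).det - s j ^ finrank ℝ E) ∂μ = 0 := fun j => by
    have hp : 0 < s j := by linarith [hR j]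
    constructor
    · refine Continuous.integrable_of_hasCompactSupport
        ((ContinuousLinearMap.continuous_det.comp (continuous_const.add hf)).sub
          continuous_const) (HasCompactSupport.intro hs fun x hx => ?_)
      rw [fderiv_of_notMem_tsupport ℝ hx]; simp [det_smul', det_one']
    have hd := hc.differentiable one_ne_zero
    have e : ∀ x, fderiv ℝ (fun x => (s j)⁻¹ • h x) x = (s j)⁻¹ • fderiv ℝ h x :=
      fun x => ((hd x).hasFDerivAt.const_smul _).fderiv
    have := vol_small μ (h := fun x => (s j)⁻¹ • h x) (hc.const_smul _)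
      (HasCompactSupport.intro hs fun x hx => by simp [image_eq_zero_of_notMem_tsupport hx])
      fun x => by
        rw [e, norm_smul, Real.norm_of_nonneg (inv_pos.2 hp).le, inv_mul_le_iff₀ hp]
        linarith [hB x, hR j]
    have e2 : ∀ x, (s j • (1 : E →L[ℝ] E) + fderiv ℝ h x).det - s j ^ finrank ℝ E =
        s j ^ finrank ℝ E * ((1 + fderiv ℝ (fun x => (s j)⁻¹ • h x) x).det - 1) := fun x => by
      rw [e, mul_sub, ← det_smul', smul_add, smul_smul, mul_inv_cancel₀ hp.ne', one_smul, mul_one]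
    simp_rw [e2]
    rw [integral_const_mul, this, mul_zero]
  have : ∀ x, (fderiv ℝ h x).det = ∑ j, l j * ((s j • (1 : E →L[ℝ] E) + fderiv ℝ h x).det
      - s j ^ finrank ℝ E) := fun x => hM _
  simp_rw [this]
  rw [integral_finset_sum _ fun j _ => (key j).1.const_mul _]
  simp [integral_const_mul, fun j => (key j).2]

end Vale.Agent.P174
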