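import Mathlib

namespace Vale.Agent.P174

open MeasureTheory Set Filter Topology Module

variable {A : Type*} [CStarAlgebra A] [FiniteDimensional ℂ A]

lemma mul_one_symm {a b : A} (h : a * b = 1) : b * a = 1 := by
  have h1 : LinearMap.mul ℂ A a * LinearMap.mul ℂ A b = 1 := by
    ext x; simp [← mul_assoc, h]
  have := congrArg (fun f : Module.End ℂ A => f 1) (mul_eq_one_comm.1 h1)
  simpa using this

lemma compact_unitary : CompactSpace (unitary A) := by
  haveI : ProperSpace A := FiniteDimensional.proper ℂ A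
  refine isCompact_iff_compactSpace.1 ((isCompact_closedBall (0 : A) 1).of_isClosed_subset
    isClosed_unitary fun u hu => ?_)
  rw [mem_closedBall_zero_iff]
  rcases subsingleton_or_nontrivial A with H | H
  · simp [Subsingleton.elim u 0]
  · exact (CStarRing.norm_of_mem_unitary hu).le

lemma finite_spec (a : A) : (spectrum ℂ a).Finite := by
  have hi : IsIntegral ℂ a := Algebra.IsIntegral.isIntegral a
  refine ((minpoly ℂ a).roots.toFinset.finite_toSet).subset fun z hz => ?_
  have := spectrum.subset_polynomial_aeval a (minpoly ℂ a) ⟨z, hz, rfl⟩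
  rw [minpoly.aeval] at this
  have h0 : (minpoly ℂ a).eval z = 0 := by
    by_contra h
    exact spectrum.mem_iff.1 this (by simpa using (Ne.isUnit h).map (algebraMap ℂ A))
  simpa [minpoly.ne_zero hi] using h0

lemma conn_unitary : PreconnectedSpace (unitary A) := by
  suffices ∀ u : unitary A, Joined 1 u from
    (PathConnectedSpace.mk ⟨1⟩ fun x y => (this x).symm.trans (this y)).connectedSpace.1
  intro u
  rcases subsingleton_or_nontrivial A with H | H
  · rw [Subsingleton.elim u 1]
  have hinf : (range fun t : ℝ => Complex.exp (t * Complex.I)).Infinite := by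
    refine (infinite_of_injOn_mapsTo (s := Ioo (0 : ℝ) 1) (f := fun t : ℝ =>
      Complex.exp (t * Complex.I)) (fun a ha b hb h => ?_) (fun a _ => ⟨a, rfl⟩)
      (Ioo_infinite zero_lt_one))
    have := congrArg Complex.re h
    simp only [Complex.exp_ofReal_mul_I_re] at this
    exact Real.injOn_cos ⟨ha.1.le, by linarith [ha.2, Real.two_le_pi]⟩
      ⟨hb.1.le, by linarith [hb.2, Real.two_le_pi]⟩ this
  obtain ⟨_, ⟨t, rfl⟩, ht⟩ := hinf.exists_notMem_finite ((finite_spec (-(u : A))))
  set v : unitary A := selfAdjoint.expUnitary ⟨algebraMap ℝ A t, IsSelfAdjoint.algebraMap A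
    (IsSelfAdjoint.all t)⟩ with hv
  have ev : (v : A) = algebraMap ℂ A (Complex.exp (t * Complex.I)) := by
    rw [hv, selfAdjoint.expUnitary_coe, Complex.exp_eq_exp_ℂ, NormedSpace.algebraMap_exp_comm]
    congr 1
    simp [Algebra.algebraMap_eq_smul_one, smul_smul, mul_comm, ← Complex.coe_smul]
  refine (selfAdjoint.joined_one_expUnitary _).trans (Unitary.joined v u ?_)
  rw [Unitary.norm_sub_eq, Unitary.norm_sub_one_lt_two_iff (SetLike.coe_mem _)]
  intro h
  refine ht (spectrum.mem_iff.2 fun hu => spectrum.mem_iff.1 h ?_)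
  have e : algebraMap ℂ A (-1) - ((u * star v : unitary A) : A) =
      -((algebraMap ℂ A (Complex.exp (t * Complex.I)) - -(u : A)) * star (v : A)) := by
    rw [← ev, sub_mul, (Unitary.mem_iff.1 v.2).2]; simp; abel
  rw [e]
  exact (hu.mul (Unitary.isUnit_coe (U := star v))).neg

lemma exists_haar (G : Type*) [Group G] [TopologicalSpace G] [IsTopologicalGroup G]
    [CompactSpace G] [MeasurableSpace G] [BorelSpace G] : ∃ ν : Measure G,
    IsProbabilityMeasure ν ∧ (∀ a b, MeasurePreserving (fun x => a * x * b) ν ν) ∧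
      MeasurePreserving (fun x => x⁻¹) ν ν := by
  set ν : Measure G := Measure.haarMeasure ⊤ with hν
  haveI : IsProbabilityMeasure ν := ⟨by
    rw [← TopologicalSpace.PositiveCompacts.coe_top]; exact Measure.haarMeasure_self⟩
  have hR : ∀ b, ν.map (· * b) = ν := fun b => by
    haveI := Measure.isProbabilityMeasure_map (μ := ν) (measurable_mul_const b).aemeasurable
    exact Measure.isHaarMeasure_eq_of_isProbabilityMeasure _ _
  haveI : ν.IsMulRightInvariant := ⟨hR⟩
  refine ⟨ν, inferInstance, fun a b => (measurePreserving_mul_right ν b).comp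
    (measurePreserving_mul_left ν a), measurable_inv, ?_⟩
  haveI : IsProbabilityMeasure ν.inv :=
    Measure.isProbabilityMeasure_map (μ := ν) measurable_inv.aemeasurable
  haveI : ν.inv.IsHaarMeasure := {}
  exact Measure.isHaarMeasure_eq_of_isProbabilityMeasure ν.inv ν

structure Polar (A : Type*) [CStarAlgebra A] where
  r : ℝ
  r0 : 0 < r
  h : A → A
  u : A → unitary A
  dh : ∀ X, ‖star X * X - 1‖ ≤ r → ContDiffAt ℝ 1 h X
  du : ∀ X, ‖star X * X - 1‖ ≤ r → ContDiffAt ℝ 1 (fun X => (u X : A)) X
  sa : ∀ X, ‖star X * X - 1‖ ≤ r → star (h X) = h X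
  near : ∀ X, ‖star X * X - 1‖ ≤ r → ‖h X - 1‖ ≤ 1 / 2
  eq : ∀ X, ‖star X * X - 1‖ ≤ r → u X * h X = X
  one : ∀ X, star X * X = 1 → h X = 1

lemma exists_polar : Nonempty (Polar A) := by
  classical
  have hf : ContDiffAt ℝ 1 (fun Y : A => Y * Y) 1 := contDiffAt_id.mul contDiffAt_id
  have hf' : HasFDerivAt (fun Y : A => Y * Y)
      (ContinuousLinearEquiv.smulLeft (Units.mk0 (2 : ℝ) two_ne_zero) :
        A ≃L[ℝ] A).toContinuousLinearMap 1 := by
    refine ((hasFDerivAt_id (𝕜 := ℝ) (1 : A)).fun_mul' (hasFDerivAt_id 1)).congr_fderiv ?_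
    ext x; simp [two_smul, Units.smul_def]
  set g := hf.localInverse hf' one_ne_zero with hg
  have hs := hf.hasStrictFDerivAt' hf' one_ne_zero
  have g1 : g 1 = 1 := by simpa using hf.localInverse_apply_image hf' one_ne_zero
  have gd : ContDiffAt ℝ 1 g 1 := by simpa using hf.to_localInverse hf' one_ne_zero
  have e1 : ∀ᶠ Z in 𝓝 (1 : A), g Z * g Z = Z := by
    have := hs.eventually_right_inverse
    rw [mul_one] at this
    exact this
  have e2 : ∀ᶠ Z in 𝓝 (1 : A), star (g (star Z)) = g Z := by
    have := hs.localInverse_unique (g := fun Z => star (g (star Z))) (by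
      have h1 : Tendsto (star : A → A) (𝓝 1) (𝓝 1) := by
        simpa using (continuous_star (R := A)).tendsto 1
      filter_upwards [h1.eventually hs.eventually_left_inverse] with Y hY
      rw [star_mul]
      exact (congrArg star hY).trans (star_star Y))
    rw [mul_one] at this
    exact this
  have e3 : ∀ᶠ Z in 𝓝 (1 : A), ‖g Z - 1‖ ≤ 1 / 2 := by
    have := gd.continuousAt.eventually (Metric.closedBall_mem_nhds _ (one_half_pos (α := ℝ)))
    rw [g1] at this
    exact this.mono fun Z hZ => mem_closedBall_iff_norm.1 hZ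
  obtain ⟨r, hr, H⟩ := Metric.eventually_nhds_iff.1
    (e1.and (e2.and (e3.and (gd.eventually (by simp)))))
  simp only [dist_eq_norm] at H
  have hun : ∀ X : A, ‖star X * X - 1‖ < r → IsUnit (g (star X * X)) := fun X hX => by
    have := (H hX).2.2.1
    have h2 := (Units.oneSub (1 - g (star X * X)) (by rw [norm_sub_rev]; linarith)).isUnit
    simpa using h2
  have hsa : ∀ X : A, ‖star X * X - 1‖ < r → star (g (star X * X)) = g (star X * X) :=
    fun X hX => by simpa using (H hX).2.1
  have hU : ∀ X : A, ‖star X * X - 1‖ < r → X * Ring.inverse (g (star X * X)) ∈ unitary A :=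
    fun X hX => by
    have h1 : star (X * Ring.inverse (g (star X * X))) * (X * Ring.inverse (g (star X * X))) = 1 := by
      rw [star_mul, ← Ring.inverse_star, hsa X hX, mul_assoc, ← mul_assoc (star X)]
      nth_rewrite 2 [← (H hX).1]
      rw [mul_assoc, Ring.mul_inverse_cancel _ (hun X hX), mul_one,
        Ring.inverse_mul_cancel _ (hun X hX)]
    exact ⟨h1, mul_one_symm h1⟩
  have hd : ContDiff ℝ 1 fun X : A => star X * X :=
    (starL' ℝ (A := A)).contDiff.mul contDiff_id
  have dh : ∀ X : A, ‖star X * X - 1‖ < r → ContDiffAt ℝ 1 (fun X => g (star X * X)) X :=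
    fun X hX => ContDiffAt.comp (g := g) X (H hX).2.2.2 hd.contDiffAt
  have lt : ∀ {X : A}, ‖star X * X - 1‖ ≤ r / 2 → ‖star X * X - 1‖ < r :=
    fun h => by linarith
  refine ⟨⟨r / 2, half_pos hr, fun X => g (star X * X), fun X =>
    if h : X * Ring.inverse (g (star X * X)) ∈ unitary A then ⟨_, h⟩ else 1,
    fun X hX => dh X (lt hX), fun X hX => ?_, fun X hX => hsa X (lt hX),
    fun X hX => (H (lt hX)).2.2.1, fun X hX => ?_, fun X hX => by rw [hX, g1]⟩⟩
  · obtain ⟨w, hw⟩ := hun X (lt hX)
    have h1 : ContDiffAt ℝ 1 (fun X : A => X * Ring.inverse (g (star X * X))) X :=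
      contDiffAt_id.mul (ContDiffAt.comp (g := Ring.inverse) X
        (hw ▸ contDiffAt_ringInverse ℝ w) (dh X (lt hX)))
    refine h1.congr_of_eventuallyEq ?_
    have : ∀ᶠ Y in 𝓝 X, ‖star Y * Y - 1‖ < r :=
      (hd.continuous.sub continuous_const).norm.continuousAt.eventually (gt_mem_nhds (lt hX))
    filter_upwards [this] with Y hY
    rw [dif_pos (hU Y hY)]
  · rw [dif_pos (hU X (lt hX)), mul_assoc, Ring.inverse_mul_cancel _ (hun X (lt hX)), mul_one]

end Vale.Agent.P174
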