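import Vale.Agent.P174.Null
import Vale.Agent.P174.Polar

namespace Vale.Agent.P174

open Set Filter Topology Module

variable {A : Type*} [CStarAlgebra A]

noncomputable def Sop (u : A) (τ : ℝ) : ℕ → A →L[ℝ] A
  | 0 => 0
  | j + 1 => 1 + τ • (ContinuousLinearMap.mulLeftRight ℝ A (star u) u).comp (Sop u τ j)

lemma Sop_succ (u : A) (τ : ℝ) (j : ℕ) (w : A) :
    Sop u τ (j + 1) w = w + τ • (star u * Sop u τ j w * u) := by simp [Sop]

lemma Sop_cont (u : A) : ∀ j, Continuous fun τ => Sop u τ j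
  | 0 => continuous_const
  | j + 1 => continuous_const.add (continuous_id.smul (continuous_const.clm_comp (Sop_cont u j)))

lemma Sop_skew (u : A) (τ : ℝ) {w : A} (hw : star w = -w) :
    ∀ j, star (Sop u τ j w) = -Sop u τ j w
  | 0 => by simp [Sop]
  | j + 1 => by simp [Sop_succ, hw, Sop_skew u τ hw j, mul_assoc, add_comm]

lemma Sop_tele (u : A) (τ : ℝ) (w : A) : ∀ j, Sop u τ j w - τ • (star u * Sop u τ j w * u) =
    w - τ ^ j • (star u ^ j * w * u ^ j)
  | 0 => by simp [Sop]
  | j + 1 => by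
    have h := congrArg (fun z => τ • (star u * z * u)) (Sop_tele u τ w j)
    simp only [mul_sub, sub_mul, smul_sub, mul_smul_comm, smul_mul_assoc, smul_smul] at h
    rw [Sop_succ, pow_succ' τ, pow_succ' (star u), pow_succ u]
    simp only [mul_add, add_mul, smul_add, mul_smul_comm, smul_mul_assoc, smul_smul, mul_assoc] at h ⊢
    rw [add_sub_add_comm, h]
    abel

lemma Sop_one (τ : ℝ) (hτ : 0 ≤ τ) (w : A) : ∀ j, ∃ t : ℝ, 0 ≤ t ∧ Sop 1 τ j w = t • w
  | 0 => ⟨0, le_rfl, by simp [Sop]⟩
  | j + 1 => by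
    obtain ⟨t, h0, h⟩ := Sop_one τ hτ w j
    exact ⟨1 + τ * t, by positivity, by simp [Sop_succ, h, add_smul, smul_smul]⟩

lemma Sop_inj (u : unitary A) {τ : ℝ} (h0 : 0 ≤ τ) (h1 : τ < 1 ∨ u = 1) (j : ℕ) {w : A}
    (h : Sop (u : A) τ (j + 1) w = 0) : w = 0 := by
  rcases h1 with h1 | rfl
  · have e := Sop_tele (u : A) τ w (j + 1)
    rw [h, mul_zero, zero_mul, smul_zero, sub_zero, eq_comm, sub_eq_zero] at e
    have e2 := congrArg norm e
    rw [norm_smul, ← star_pow, ← SubmonoidClass.coe_pow, CStarRing.norm_mul_coe_unitary,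
      ← Unitary.coe_star, CStarRing.norm_coe_unitary_mul, Real.norm_of_nonneg (by positivity)] at e2
    by_contra hw
    have := mul_lt_mul_of_pos_right (pow_lt_one₀ h0 h1 (Nat.succ_ne_zero j)) (norm_pos_iff.2 hw)
    rw [Nat.succ_eq_add_one] at this
    linarith
  · obtain ⟨t, t0, ht⟩ := Sop_one τ h0 w j
    have e : (1 + τ * t) • w = 0 := by
      simpa [Sop_succ, ht, add_smul, smul_smul] using h
    exact (smul_eq_zero.1 e).resolve_left (by positivity)

lemma pow_deriv {u : A → unitary A} {U : A →L[ℝ] A} {X : A}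
    (h : HasFDerivAt (fun X => (u X : A)) U X) : ∀ j, HasFDerivAt (fun X => (u X : A) ^ j)
      ((ContinuousLinearMap.mul ℝ A ((u X : A) ^ j)).comp ((Sop (u X : A) 1 j).comp
        ((ContinuousLinearMap.mul ℝ A (star (u X : A))).comp U))) X
  | 0 => by simpa [Sop] using hasFDerivAt_const (𝕜 := ℝ) (1 : A) X
  | j + 1 => by
    simp only [pow_succ]
    refine ((pow_deriv h j).fun_mul' h).congr_fderiv ?_
    ext v
    have e : ∀ z : A, (u X : A) * (star (u X : A) * z) = z := fun z => by
      rw [← mul_assoc, (Unitary.mem_iff.1 (u X).2).2, one_mul]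
    simp [Sop_succ, mul_add, mul_assoc, e]

variable [FiniteDimensional ℂ A]

lemma det_mul_pos (w : unitary A) : 0 < (ContinuousLinearMap.mul ℝ A (w : A)).det := by
  haveI := conn_unitary (A := A)
  have hc : Continuous fun w : unitary A => (ContinuousLinearMap.mul ℝ A (w : A)).det :=
    ContinuousLinearMap.continuous_det.comp ((ContinuousLinearMap.mul ℝ A).continuous.comp
      continuous_subtype_val)
  by_contra hn
  obtain ⟨z, hz⟩ := intermediate_value_univ w 1 hc (show (0 : ℝ) ∈ Icc _ _ from ⟨not_lt.1 hn, by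
    rw [show ContinuousLinearMap.mul ℝ A ((1 : unitary A) : A) = 1 by ext; simp, det_one']
    exact zero_le_one⟩)
  refine det_ne_zero (fun v hv => ?_) hz
  have : (z : A) * v = 0 := hv
  rw [← one_mul v, ← (Unitary.mem_iff.1 z.2).1, mul_assoc, this, mul_zero]

theorem pow_det (p : Polar A) (D : ℕ) {X : A} (hX : ‖star X * X - 1‖ < p.r) :
    0 ≤ (fderiv ℝ (fun X => (p.u X : A) ^ (D + 1) * p.h X - 1) X).det ∧
    (p.u X = 1 → 0 < (fderiv ℝ (fun X => (p.u X : A) ^ (D + 1) * p.h X - 1) X).det) := by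
  have dU := ((p.du X hX.le).differentiableAt one_ne_zero).hasFDerivAt
  have dH := ((p.dh X hX.le).differentiableAt one_ne_zero).hasFDerivAt
  set U := fderiv ℝ (fun X => (p.u X : A)) X
  set H := fderiv ℝ p.h X
  set u : A := (p.u X : A) with hu
  set h := p.h X with hh
  have ev : ∀ᶠ Y in 𝓝 X, ‖star Y * Y - 1‖ ≤ p.r :=
    ((show Continuous fun Y : A => ‖star Y * Y - 1‖ by fun_prop).continuousAt.eventually
      (gt_mem_nhds hX)).mono fun _ => le_of_lt
  have u1 : star u * u = 1 := (Unitary.mem_iff.1 (p.u X).2).1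
  have u2 : ∀ z, u * (star u * z) = z := fun z => by
    rw [← mul_assoc, (Unitary.mem_iff.1 (p.u X).2).2, one_mul]
  have r1 : ∀ v, u * H v + U v * h = v := fun v => by
    have := (dU.fun_mul' dH).unique ((hasFDerivAt_id X).congr_of_eventuallyEq
      (ev.mono fun Y hY => p.eq Y hY))
    simpa using congrArg (fun f : A →L[ℝ] A => f v) this
  have r2 : ∀ v, star (H v) = H v := fun v => by
    have := ((starL' ℝ (A := A)).hasFDerivAt.comp X dH).unique (dH.congr_of_eventuallyEq
      (ev.mono fun Y hY => p.sa Y hY))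
    simpa using congrArg (fun f : A →L[ℝ] A => f v) this
  have r3 : ∀ v, star (star u * U v) = -(star u * U v) := fun v => by
    have := (((starL' ℝ (A := A)).hasFDerivAt.comp X dU).fun_mul' dU).unique
      ((hasFDerivAt_const (1 : A) X).congr_of_eventuallyEq
        (Eventually.of_forall fun Y => (Unitary.mem_iff.1 (p.u Y).2).1))
    have h2 := congrArg (fun f : A →L[ℝ] A => f v) this
    simp at h2
    rw [star_mul, star_star]
    exact eq_neg_of_add_eq_zero_right h2
  set N : ℝ → A →L[ℝ] A := fun τ => (ContinuousLinearMap.mul ℝ A (u ^ (D + 1))).comp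
    ((ContinuousLinearMap.mulLeftRight ℝ A 1 h).comp ((Sop u τ (D + 1)).comp
      ((ContinuousLinearMap.mul ℝ A (star u)).comp U)) + H) with hN
  have e1 : fderiv ℝ (fun X => (p.u X : A) ^ (D + 1) * p.h X - 1) X = N 1 := by
    rw [(((pow_deriv dU (D + 1)).fun_mul' dH).sub_const 1).fderiv]
    ext v
    simp [hN, mul_add, mul_assoc, add_comm, ← hu, ← hh]
  have cN : Continuous N := continuous_const.clm_comp ((continuous_const.clm_comp
    ((Sop_cont u _).clm_comp continuous_const)).add continuous_const)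
  have e0 : 0 < (N 0).det := by
    convert det_mul_pos (p.u X ^ D) using 2
    ext v
    simp only [hN, ContinuousLinearMap.comp_apply, ContinuousLinearMap.add_apply, Sop_succ,
      ContinuousLinearMap.mul_apply', ContinuousLinearMap.mulLeftRight_apply, zero_smul, add_zero,
      one_mul, pow_succ, mul_assoc, mul_add, u2, SubmonoidClass.coe_pow, ← hu]
    rw [← mul_add, add_comm, r1]
  have inj : ∀ τ, 0 ≤ τ → (τ < 1 ∨ p.u X = 1) → ∀ v, N τ v = 0 → v = 0 := fun τ t0 t1 v hv => by
    set κ := Sop u τ (D + 1) (star u * U v) with hκ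
    have a1 : κ * h + H v = 0 := by
      have : u ^ (D + 1) * (κ * h + H v) = 0 := by simpa [hN, mul_add, hκ] using hv
      rw [← one_mul (κ * h + H v), ← (Unitary.mem_iff.1 (p.u X ^ (D + 1)).2).1, mul_assoc,
        SubmonoidClass.coe_pow, this, mul_zero]
    have a2 := congrArg star a1
    rw [star_add, star_mul, r2, Sop_skew u τ (r3 v), p.sa X hX.le, star_zero, ← hκ, ← hh] at a2
    have a3 : κ + κ = -(κ * (h - 1) + (h - 1) * κ) := by
      have : κ * h + H v - (h * -κ + H v) = 0 := by rw [a1, a2, sub_zero]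
      rw [← sub_eq_zero, ← this]; noncomm_ring
    have a4 : κ = 0 := by
      have b1 := congrArg norm a3
      rw [← two_smul ℝ κ, norm_smul, norm_neg, Real.norm_of_nonneg zero_le_two] at b1
      have b2 := norm_add_le (κ * (h - 1)) ((h - 1) * κ)
      have b3 := norm_mul_le κ (h - 1)
      have b4 := norm_mul_le (h - 1) κ
      have b5 := mul_le_mul_of_nonneg_left (p.near X hX.le) (norm_nonneg κ)
      rw [← norm_eq_zero]
      nlinarith [norm_nonneg κ]
    rw [a4, zero_mul, zero_add] at a1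
    rw [← r1 v, a1, ← u2 (U v), Sop_inj (p.u X) t0 t1 D a4]
    simp
  rw [e1]
  exact ⟨det_nonneg_of_path N cN e0 fun s hs => inj s hs.1 (Or.inl hs.2),
    fun h1 => det_pos_of_path N cN e0 fun s hs => inj s hs.1 (Or.inr h1)⟩

theorem sph_det {Y : Type*} [NormedAddCommGroup Y] [InnerProductSpace ℝ Y] [FiniteDimensional ℝ Y]
    {k : ℕ} (hk : finrank ℝ Y = k + 1) (y : Y) :
    (fderiv ℝ (fun y : Y => (‖y‖ ^ 2 - 2) • y) y).det =
      (‖y‖ ^ 2 - 2) ^ k * (‖y‖ ^ 2 - 2 + 2 * ‖y‖ ^ 2) := by
  have hd := (((hasStrictFDerivAt_norm_sq y).hasFDerivAt.sub_const 2).fun_smul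
    (hasFDerivAt_id y)).fderiv
  have key : (fun s : ℝ => (s • ContinuousLinearMap.id ℝ Y + (2 • innerSL ℝ y).smulRight y).det) =
      fun s => s ^ k * (s + 2 * ‖y‖ ^ 2) := by
    refine Continuous.ext_on (dense_compl_singleton 0)
      (ContinuousLinearMap.continuous_det.comp (by fun_prop)) (by fun_prop) fun s hs => ?_
    have hs : s ≠ 0 := hs
    have e : ((s • ContinuousLinearMap.id ℝ Y + (2 • innerSL ℝ y).smulRight y : Y →L[ℝ] Y) :
        Y →ₗ[ℝ] Y) = s • LinearMap.transvection ((2 / s) • (innerSL ℝ y : Y →ₗ[ℝ] ℝ)) y := by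
      ext v
      simp [LinearMap.transvection.apply, smul_smul, mul_div_cancel₀, hs, ← mul_assoc]
    simp only [ContinuousLinearMap.det]
    rw [e, LinearMap.det_smul, LinearMap.transvection.det, hk]
    simp
    field_simp
    ring
  exact (congrArg ContinuousLinearMap.det hd).trans (congrFun key _)

end Vale.Agent.P174
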