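import Vale.Agent.P174.Stmts

namespace Vale.Agent.P174

universe u

namespace R

theorem exists_right_inv {m n : ℕ} (A : Matrix (Fin m) (Fin n) ℤ)
    (h : (Matrix.of fun i j => ((A i j : ℤ) : ℚ)).rank = m) :
    ∃ (B : Matrix (Fin n) (Fin m) ℤ) (D : ℕ), 0 < D ∧
      ∀ i, Matrix.vecMul (A i) B = Pi.single i (D : ℤ) := by
  set Q : Matrix (Fin m) (Fin n) ℚ := Matrix.of fun i j => ((A i j : ℤ) : ℚ) with hQ
  have htop : LinearMap.range Q.mulVecLin = ⊤ := by
    apply Submodule.eq_top_of_finrank_eq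
    rw [Module.finrank_fin_fun]
    exact h
  have hs : ∀ k : Fin m, ∃ v : Fin n → ℚ, Q.mulVec v = Pi.single k 1 := fun k => by
    have : (Pi.single k 1 : Fin m → ℚ) ∈ LinearMap.range Q.mulVecLin := by
      rw [htop]; trivial
    exact this
  choose v hv using hs
  obtain ⟨b, hb⟩ := IsLocalization.exist_integer_multiples_of_finite (nonZeroDivisors ℤ)
    (fun p : Fin m × Fin n => v p.1 p.2)
  choose c hc using hb
  have hb0 : (b : ℤ) ≠ 0 := nonZeroDivisors.coe_ne_zero b
  refine ⟨Matrix.of fun j k => (b : ℤ) * c (k, j), (b : ℤ).natAbs ^ 2, by positivity, fun i => ?_⟩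
  funext k
  have h1 := congrFun (hv k) i
  have h2 : ∀ j, ((c (k, j) : ℤ) : ℚ) = ((b : ℤ) : ℚ) * v k j := fun j => by
    have := hc (k, j)
    simpa [Submonoid.smul_def, zsmul_eq_mul] using this
  have h3 : (((Matrix.vecMul (A i) (Matrix.of fun j k => (b : ℤ) * c (k, j)) k : ℤ)) : ℚ)
      = ((b : ℤ) : ℚ) ^ 2 * (Q.mulVec (v k) i) := by
    simp only [Matrix.vecMul, Matrix.mulVec, dotProduct, Matrix.of_apply, hQ]
    push_cast
    rw [Finset.mul_sum]
    refine Finset.sum_congr rfl fun j _ => ?_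
    rw [h2]; ring
  rw [h1] at h3
  have h4 : (((Pi.single i (((b : ℤ).natAbs ^ 2 : ℕ) : ℤ) : Fin m → ℤ) k : ℤ) : ℚ)
      = ((b : ℤ) : ℚ) ^ 2 * (Pi.single k 1 : Fin m → ℚ) i := by
    by_cases hik : i = k
    · subst hik
      simp
    · simp [hik, Ne.symm hik]
  exact_mod_cast h3.trans h4.symm

/-- exponent vector on a free group -/
def ex (m : ℕ) : FreeGroup (Fin m) →* Multiplicative (Fin m → ℤ) :=
  FreeGroup.lift fun j => Multiplicative.ofAdd (Pi.single j 1)

theorem ex_surj (m : ℕ) (v : Fin m → ℤ) : ∃ z, ex m z = Multiplicative.ofAdd v := by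
  have h1 : Multiplicative.ofAdd v
      = ∏ i, (Multiplicative.ofAdd (Pi.single i 1 : Fin m → ℤ)) ^ (v i) := by
    conv_lhs => rw [← Finset.univ_sum_single v]
    rw [ofAdd_sum]
    refine Finset.prod_congr rfl fun i _ => ?_
    rw [← ofAdd_zsmul]
    congr 1
    funext k
    by_cases hk : k = i
    · subst hk; simp
    · simp [hk]
  have : Multiplicative.ofAdd v ∈ (ex m).range := by
    rw [h1]
    refine Subgroup.prod_mem _ fun i _ => Subgroup.zpow_mem _ (MonoidHom.mem_range.mpr ⟨FreeGroup.of i, ?_⟩) _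
    simp [ex]
  exact this

theorem two_invol {G : Type u} [Group G] (g : G) :
    ∃ a b : Equiv.Perm G, a * a = 1 ∧ b * b = 1 ∧ a * b = MulAction.toPermHom G G g := by
  let H := Subgroup.zpowers g
  let t : G → G := fun x => (Quotient.mk (QuotientGroup.rightRel H) x).out
  have ht : ∀ x, x * (t x)⁻¹ ∈ H := fun x =>
    QuotientGroup.rightRel_apply.mp (Quotient.exact (Quotient.out_eq
      (Quotient.mk (QuotientGroup.rightRel H) x)))
  have ht2 : ∀ x h, h ∈ H → t (h * x) = t x := fun x h hh => by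
    have : Quotient.mk (QuotientGroup.rightRel H) (h * x)
        = Quotient.mk (QuotientGroup.rightRel H) x := by
      apply Quotient.sound
      apply QuotientGroup.rightRel_apply.mpr
      simpa using hh
    simp only [t, this]
  let τ : G → G := fun x => t x * x⁻¹ * t x
  have htt : ∀ x, t (τ x) = t x := fun x => by
    have h1 : τ x = ((x * (t x)⁻¹)⁻¹ * (x * (t x)⁻¹)⁻¹) * x := by
      simp only [τ]; group
    rw [h1]
    exact ht2 _ _ (H.mul_mem (H.inv_mem (ht x)) (H.inv_mem (ht x)))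
  have hinv : Function.Involutive τ := fun x => by
    show t (τ x) * (τ x)⁻¹ * t (τ x) = x
    rw [htt]
    simp only [τ]; group
  have hg : ∀ x, τ (g * x) = g⁻¹ * τ x := fun x => by
    show t (g * x) * (g * x)⁻¹ * t (g * x) = g⁻¹ * (t x * x⁻¹ * t x)
    rw [ht2 x g (Subgroup.mem_zpowers g)]
    obtain ⟨k, hk⟩ := Subgroup.mem_zpowers_iff.mp (ht x)
    have h2 : t x * x⁻¹ = g ^ (-k) := by
      rw [zpow_neg, hk]; group
    have h3 : t x * (g * x)⁻¹ = g ^ (-k) * g⁻¹ := by
      rw [← h2]; group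
    rw [h3, h2]; group
  let a : Equiv.Perm G := hinv.toPerm τ
  have ha : ∀ x, a x = τ x := fun _ => rfl
  have haa : a * a = 1 := by
    ext x
    exact hinv x
  refine ⟨a, a * MulAction.toPermHom G G g, haa, ?_, by rw [← mul_assoc, haa, one_mul]⟩
  ext x
  show τ (g * τ (g * x)) = x
  rw [hg, hinv]; group

end R

theorem final (h : CoreStmt.{u}) : FinalStmt.{u} := by
  intro G _ m n w hw
  obtain ⟨B, D, hD, hB⟩ := R.exists_right_inv
    (Matrix.of fun i j => Multiplicative.toAdd (expo G n (w i)) j) hw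
  choose z hz using fun j : Fin n => R.ex_surj m (B j)
  let κ : Type u := {s : Equiv.Perm G // s * s = 1}
  let s : κ → Equiv.Perm G := fun k => k.1
  let π : FreeGroup κ →* Equiv.Perm G := FreeGroup.lift s
  have hl : ∀ g : G, ∃ l, π l = MulAction.toPermHom G G g := fun g => by
    obtain ⟨a, b, ha, hb, hab⟩ := R.two_invol g
    refine ⟨FreeGroup.of ⟨a, ha⟩ * FreeGroup.of ⟨b, hb⟩, ?_⟩
    rw [← hab]
    simp [π, s]
  choose l hl using hl
  let S : Set (FreeGroup (κ ⊕ Fin m)) :=
    FreeGroup.map Sum.inl '' (π.ker : Set (FreeGroup κ))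
  let N0 := Subgroup.normalClosure S
  let θ : G →* FreeGroup (κ ⊕ Fin m) ⧸ N0 := MonoidHom.mk'
    (fun g => QuotientGroup.mk' N0 (FreeGroup.map Sum.inl (l g))) (fun g g' => by
      rw [← map_mul, ← map_mul]
      apply QuotientGroup.eq.mpr
      rw [← map_inv, ← map_mul]
      apply Subgroup.subset_normalClosure
      refine ⟨_, ?_, rfl⟩
      show π _ = 1
      simp only [map_mul, map_inv, hl]
      group)
  let Ψ : Monoid.Coprod G (FreeGroup (Fin n)) →* FreeGroup (κ ⊕ Fin m) ⧸ N0 :=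
    Monoid.Coprod.lift θ
      (FreeGroup.lift fun j => QuotientGroup.mk' N0 (FreeGroup.map Sum.inr (z j)))
  have e1 : ∀ x : FreeGroup κ, expo' κ m (FreeGroup.map Sum.inl x) = 1 := fun x => by
    have : (expo' κ m).comp (FreeGroup.map Sum.inl) = 1 := by
      ext k : 1
      simp [expo']
    exact DFunLike.congr_fun this x
  have e2 : ∀ x : FreeGroup (Fin m), expo' κ m (FreeGroup.map Sum.inr x) = R.ex m x := fun x => by
    have : (expo' κ m).comp (FreeGroup.map Sum.inr) = R.ex m := by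
      ext k : 1
      simp [expo', R.ex]
    exact DFunLike.congr_fun this x
  have hN0 : N0 ≤ (expo' κ m).ker := by
    apply Subgroup.normalClosure_le_normal
    rintro _ ⟨x, -, rfl⟩
    exact e1 x
  let E : FreeGroup (κ ⊕ Fin m) ⧸ N0 →* Multiplicative (Fin m → ℤ) :=
    QuotientGroup.lift N0 (expo' κ m) fun x hx => hN0 hx
  let μ : Multiplicative (Fin n → ℤ) →* Multiplicative (Fin m → ℤ) := MonoidHom.mk'
    (fun v => Multiplicative.ofAdd (Matrix.vecMul (Multiplicative.toAdd v) B)) (fun v v' => by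
      rw [toAdd_mul, Matrix.add_vecMul, ofAdd_add])
  have hE : E.comp Ψ = μ.comp (expo G n) := by
    apply Monoid.Coprod.hom_ext
    · ext g : 1
      show E (Ψ (Monoid.Coprod.inl g)) = μ (expo G n (Monoid.Coprod.inl g))
      simp only [Ψ, expo, Monoid.Coprod.lift_apply_inl, MonoidHom.one_apply, map_one]
      exact e1 _
    · ext j : 1
      show E (Ψ (Monoid.Coprod.inr (FreeGroup.of j)))
        = μ (expo G n (Monoid.Coprod.inr (FreeGroup.of j)))
      simp only [Ψ, expo, Monoid.Coprod.lift_apply_inr, FreeGroup.lift_apply_of]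
      show expo' κ m _ = Multiplicative.ofAdd (Matrix.vecMul (Pi.single j 1) B)
      rw [e2, hz, Matrix.single_one_vecMul]
      rfl
  choose w' hw' using fun i => QuotientGroup.mk'_surjective N0 (Ψ (w i))
  have hw2 : ∀ i, expo' κ m (w' i) = Multiplicative.ofAdd (Pi.single i (D : ℤ)) := fun i => by
    have h1 : E (Ψ (w i)) = μ (expo G n (w i)) := DFunLike.congr_fun hE (w i)
    rw [← hw'] at h1
    rw [← hB i]
    exact h1
  let N1 := Subgroup.normalClosure (Set.range w' ∪ S)
  have h01 : N0 ≤ N1 := Subgroup.normalClosure_mono Set.subset_union_right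
  let q : FreeGroup (κ ⊕ Fin m) ⧸ N0 →* FreeGroup (κ ⊕ Fin m) ⧸ N1 :=
    QuotientGroup.lift N0 (QuotientGroup.mk' N1) fun x hx =>
      (QuotientGroup.eq_one_iff x).mpr (h01 hx)
  have hker : Subgroup.normalClosure (Set.range w) ≤ (q.comp Ψ).ker := by
    apply Subgroup.normalClosure_le_normal
    rintro _ ⟨i, rfl⟩
    show q (Ψ (w i)) = 1
    rw [← hw']
    exact (QuotientGroup.eq_one_iff (w' i)).mpr
      (Subgroup.subset_normalClosure (Or.inl ⟨i, rfl⟩))
  rw [injective_iff_map_eq_one]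
  intro g hg
  have hg1 : Monoid.Coprod.inl g ∈ Subgroup.normalClosure (Set.range w) :=
    (QuotientGroup.eq_one_iff _).mp hg
  have hg2 : q (Ψ (Monoid.Coprod.inl g)) = 1 := hker hg1
  have hg3 : FreeGroup.map Sum.inl (l g) ∈ N1 := by
    apply (QuotientGroup.eq_one_iff _).mp
    simp only [Ψ, Monoid.Coprod.lift_apply_inl] at hg2
    exact hg2
  have hg4 := h (Equiv.Perm G) κ s (fun k => k.2) m D hD w' hw2 (l g) hg3
  have hg5 : MulAction.toPermHom G G g = 1 := by rw [← hl]; exact hg4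
  have := DFunLike.congr_fun hg5 1
  simpa using this

end Vale.Agent.P174
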