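import Vale.Agent.P174.Stmts

/-! Continuous selection of Gram data, from the finiteness of the group von Neumann algebra. -/

namespace Vale.Agent.P174

open scoped InnerProductSpace
open Finset ContinuousLinearMap Filter Topology

universe u

namespace S

variable {E : Type*} [NormedAddCommGroup E] [InnerProductSpace ℂ E] [CompleteSpace E]

theorem exists_perm {ι : Type*} (d : HilbertBasis ι ℂ E) (e : ι ≃ ι) :
    ∃ U : E ≃ₗᵢ[ℂ] E, ∀ i, U (d i) = d (e i) := by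
  classical
  have h : ⊤ ≤ (Submodule.span ℂ (Set.range (d ∘ e))).topologicalClosure := by
    rw [e.surjective.range_comp, d.dense_span]
  refine ⟨d.repr.trans (HilbertBasis.mk (d.orthonormal.comp e e.injective) h).repr.symm,
    fun i => ?_⟩
  rw [LinearIsometryEquiv.trans_apply, d.repr_self, HilbertBasis.repr_symm_single,
    HilbertBasis.coe_mk]
  rfl

theorem exists_reg (G : Type u) [Group G] : ∃ (E : Type u) (_ : NormedAddCommGroup E)
    (_ : InnerProductSpace ℂ E) (_ : CompleteSpace E) (d : G → E) (l r : G → E ≃ₗᵢ[ℂ] E),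
    Orthonormal ℂ d ∧ (∀ g h, l g (d h) = d (g * h)) ∧ (∀ g h, r g (d h) = d (h * g)) ∧
      (∀ g h x, l (g * h) x = l g (l h x)) ∧ ∀ g h x, l g (r h x) = r h (l g x) := by
  let d : HilbertBasis G ℂ (lp (fun _ : G => ℂ) 2) := default
  choose l hl using fun g : G => exists_perm d (Equiv.mulLeft g)
  choose r hr using fun g : G => exists_perm d (Equiv.mulRight g)
  have k : ∀ S T : lp (fun _ : G => ℂ) 2 ≃ₗᵢ[ℂ] lp (fun _ : G => ℂ) 2, (∀ g, S (d g) = T (d g)) →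
      ∀ x, S x = T x := fun S T h x => congrArg (· x) (ext_on
    (f := S.toLinearIsometry.toContinuousLinearMap)
    (g := T.toLinearIsometry.toContinuousLinearMap) (Submodule.dense_iff_topologicalClosure_eq_top.2 d.dense_span)
      (by rintro _ ⟨g, rfl⟩; exact h g))
  exact ⟨_, _, _, inferInstance, d, l, r, d.orthonormal, hl, hr,
    fun g h => k _ ((l h).trans (l g)) fun x => by simp [hl, mul_assoc],
    fun g h => k ((r h).trans (l g)) ((l g).trans (r h)) fun x => by simp [hl, hr, mul_assoc]⟩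

/-- An operator of the finite algebra which is bounded below is onto. -/
theorem onto {G I P : Type*} [Group G] [Fintype I] [Fintype P] (δ : G → I → E)
    (R : G → unitary (E →L[ℂ] E)) (hR : ∀ g h i, (R g).1 (δ h i) = δ (h * g) i)
    (A : E →L[ℂ] E) (hA : ∀ g, (R g).1 * A = A * (R g).1) (b : P → G) (α : P → I → I → ℂ)
    (h1 : ∀ j, A (δ 1 j) = ∑ p, ∑ i, α p i j • δ (b p) i)
    (h2 : ∀ i z, ⟪δ 1 i, A z⟫_ℂ = ∑ p, ∑ j, α p i j * ⟪δ (b p)⁻¹ j, z⟫_ℂ) {ε : ℝ} (hε : 0 < ε)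
    (hb : ∀ x, ε * ‖x‖ ≤ ‖A x‖) (g : G) (i : I) : δ g i ∈ LinearMap.range (A : E →ₗ[ℂ] E) := by
  obtain ⟨S, hS⟩ : IsUnit (star A * A) := isUnit_of_forall_le_norm_inner_map _
    (c := ⟨ε ^ 2, by positivity⟩) (by change 0 < ε ^ 2; positivity) fun x => by
      rw [mul_apply_eq_comp, star_eq_adjoint, adjoint_inner_left, inner_self_eq_norm_sq_to_K]
      have := pow_le_pow_left₀ (by positivity) (hb x) 2
      change ‖x‖ ^ 2 * ε ^ 2 ≤ _
      simpa [mul_pow, mul_comm] using this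
  have hA' : ∀ g, (R g).1 * star A = star A * (R g).1 := fun g => by
    have := congrArg (fun x => (R g).1 * star x * (R g).1) (hA g)
    simpa only [star_mul, mul_assoc, Unitary.coe_star_mul_self, ← mul_assoc (R g).1 (star (R g).1),
      Unitary.mul_star_self_of_mem (R g).2, one_mul, mul_one] using this
  obtain ⟨X, X1, X2, X3⟩ : ∃ X : E →L[ℂ] E, X * A = 1 ∧ star (A * X) = A * X ∧
      ∀ g, (R g).1 * X = X * (R g).1 := by
    refine ⟨↑S⁻¹ * star A, by rw [mul_assoc, ← hS, S.inv_mul], ?_, fun g => ?_⟩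
    · have : star (↑S⁻¹ : E →L[ℂ] E) = ↑S⁻¹ := by
        have e : star (S : E →L[ℂ] E) = S := by simp [hS]
        rw [← one_mul (star _), ← S.inv_mul, mul_assoc, ← e, ← star_mul, S.inv_mul, star_one,
          mul_one]
      simp [this, mul_assoc]
    · have : Commute (R g).1 S := by
        rw [hS]; exact Commute.mul_right (hA' g) (hA g)
      exact (this.units_inv_right.mul_right (hA' g)).eq
  have tr : ∑ i, ⟪δ 1 i, (A * X) (δ 1 i)⟫_ℂ = ∑ i, ⟪δ 1 i, δ 1 i⟫_ℂ := by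
    calc _ = ∑ i, ∑ p, ∑ j, α p i j * ⟪δ 1 j, X (δ (b p) i)⟫_ℂ := by
          refine sum_congr rfl fun i _ => (h2 _ _).trans (sum_congr rfl fun p _ =>
            sum_congr rfl fun j _ => ?_)
          rw [← Unitary.inner_map_map (R (b p)), hR, inv_mul_cancel]
          change _ * ⟪_, ((R (b p)).1 * X) _⟫_ℂ = _
          rw [X3, mul_apply_eq_comp, hR, one_mul]
      _ = ∑ j, ⟪δ 1 j, X (A (δ 1 j))⟫_ℂ := by
          simp only [h1, map_sum, map_smul, inner_sum, inner_smul_right]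
          rw [sum_comm]
          exact (sum_congr rfl fun _ _ => sum_comm).trans sum_comm
      _ = _ := by simp only [← mul_apply_eq_comp, X1, one_apply_eq_self]
  have z : ∑ i, ⟪(1 - A * X) (δ 1 i), (1 - A * X) (δ 1 i)⟫_ℂ = 0 := by
    have e : star (1 - A * X) * (1 - A * X) = 1 - A * X := by
      rw [star_sub, star_one, X2, mul_sub, mul_one, sub_mul, one_mul, mul_assoc, ← mul_assoc X,
        X1, one_mul, sub_self, sub_zero]
    rw [← sub_eq_zero.2 tr.symm, ← sum_sub_distrib]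
    refine sum_congr rfl fun i _ => ?_
    rw [← adjoint_inner_right, ← star_eq_adjoint, ← mul_apply_eq_comp, e, sub_apply,
      inner_sub_right, one_apply_eq_self]
  have z1 : (1 - A * X) (δ 1 i) = 0 := by
    simp only [inner_self_eq_norm_sq_to_K] at z
    have z' : ∑ i, ‖(1 - A * X) (δ 1 i)‖ ^ 2 = 0 := Complex.ofReal_injective (by simpa using z)
    exact norm_eq_zero.1 (pow_eq_zero_iff two_ne_zero |>.1
      ((sum_eq_zero_iff_of_nonneg fun i _ => sq_nonneg _).1 z' i (mem_univ _)))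
  refine ⟨X (δ g i), ?_⟩
  have := congrArg (R g).1 z1
  rw [sub_apply, map_sub, map_zero, one_apply_eq_self, hR, one_mul, ← mul_apply_eq_comp,
    ← mul_assoc, hA, mul_assoc, X3, mul_apply_eq_comp, mul_apply_eq_comp, hR, one_mul,
    sub_eq_zero] at this
  exact this.symm

theorem exists_eta {G I P : Type*} [Group G] [Fintype I] [Fintype P] {d : G → E}
    {l r : G → E ≃ₗᵢ[ℂ] E} (hl : ∀ g h, l g (d h) = d (g * h)) (hr : ∀ g h, r g (d h) = d (h * g))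
    (hc : ∀ g h x, l g (r h x) = r h (l g x)) (b : P → G) (a : I → P × Option I → ℂ) {ε : ℝ}
    (hε : 0 < ε) : ∃ η : I → E, ∑ i, ‖∑ p, a i p • l (b p.1) (p.2.elim (d 1) η)‖ ^ 2 <
      ε ^ 2 * (1 + ∑ i, ‖η i‖ ^ 2) := by
  classical
  by_contra! c
  obtain ⟨A, hA⟩ : ∃ A : PiLp 2 (fun _ : I => E) →L[ℂ] PiLp 2 (fun _ : I => E),
      ∀ x i, A x i = ∑ p, ∑ j, a i (p, some j) • l (b p) (x j) :=
    ⟨(PiLp.continuousLinearEquiv 2 ℂ fun _ : I => E).symm.toContinuousLinearMap ∘L pi fun i => ∑ p, ∑ j, a i (p, some j) •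
      ((l (b p) : E →L[ℂ] E) ∘L PiLp.proj 2 (fun _ : I => E) j), fun x i => by simp⟩
  obtain ⟨y, hy⟩ : ∃ y : PiLp 2 (fun _ : I => E),
      y = ∑ i, ∑ p, a i (p, none) • PiLp.single 2 i (d (b p)) := ⟨_, rfl⟩
  have c1 : ∀ x, ε ^ 2 * (1 + ‖x‖ ^ 2) ≤ ‖y + A x‖ ^ 2 := fun x => by
    rw [PiLp.norm_sq_eq_of_L2, PiLp.norm_sq_eq_of_L2]
    refine (c x).trans_eq (sum_congr rfl fun i _ => ?_)
    simp [hy, hA, Fintype.sum_prod_type, sum_add_distrib, hl, Pi.single_apply, sum_comm (α := I)]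
  have c2 : ∀ x, ε * ‖x‖ ≤ ‖A x‖ := fun x => by
    by_contra! h
    obtain ⟨s, s0, hs⟩ : ∃ s : ℝ, 0 < s ∧ s * (ε * ‖x‖ - ‖A x‖) = ‖y‖ + 1 :=
      ⟨(‖y‖ + 1) / (ε * ‖x‖ - ‖A x‖), by have := sub_pos.2 h; positivity,
        div_mul_cancel₀ _ (sub_pos.2 h).ne'⟩
    have a1 := c1 ((s : ℂ) • x)
    have a2 := norm_add_le y (A ((s : ℂ) • x))
    rw [map_smul, norm_smul, Complex.norm_real, Real.norm_of_nonneg s0.le] at a1 a2
    have : ε * (s * ‖x‖) ≤ ‖y + (s : ℂ) • A x‖ :=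
      (pow_le_pow_iff_left₀ (by positivity) (norm_nonneg _) two_ne_zero).1 (by nlinarith)
    nlinarith
  have m := onto (fun g i => (PiLp.single 2 i (d g) : PiLp 2 (fun _ : I => E)))
    (fun g => Unitary.linearIsometryEquiv.symm (.piLpCongrRight 2 fun _ => r g))
    (fun g h i => by simp [hr]) A (fun g => by ext x i; simp [hA, hc]) b
    (fun p i j => a i (p, some j))
    (fun j => by ext i; simp [hA, Pi.single_apply, apply_ite, hl])
    (fun i z => by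
      have k : ∀ i v z, ⟪(PiLp.single 2 i v : PiLp 2 (fun _ : I => E)), z⟫_ℂ = ⟪v, z i⟫_ℂ :=
        fun i v z => by
          rw [PiLp.inner_apply, sum_eq_single i] <;> simp +contextual
      simp only [k, hA, inner_sum, inner_smul_right]
      refine sum_congr rfl fun p _ => sum_congr rfl fun j _ => ?_
      rw [← (l (b p)).inner_map_map (d (b p)⁻¹), hl, mul_inv_cancel]) hε c2
  obtain ⟨x, hx⟩ : -y ∈ LinearMap.range (A : PiLp 2 (fun _ : I => E) →ₗ[ℂ] _) :=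
    neg_mem (hy ▸ sum_mem fun i _ => sum_mem fun p _ => Submodule.smul_mem _ _ (m _ _))
  have := c1 x
  rw [show A x = -y from hx, add_neg_cancel, norm_zero] at this
  have : 0 < ε ^ 2 * (1 + ‖x‖ ^ 2) := by positivity
  linarith

theorem exists_gram {F : Type*} [NormedAddCommGroup F] [InnerProductSpace ℂ F] [CompleteSpace F]
    (J : F →L[ℂ] E) : ∃ K : F →L[ℂ] F, 0 ≤ K ∧ ∀ x y, ⟪x, K y⟫_ℂ = ⟪J x, J y⟫_ℂ :=
  ⟨adjoint J ∘L J, (nonneg_iff_isPositive _).2 (isPositive_adjoint_comp_self J),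
    fun x y => by rw [comp_apply, adjoint_inner_right]⟩

variable (E) in
theorem exists_sqrt : ∃ q : (E →L[ℂ] E) → (E →L[ℂ] E), ContinuousOn q {K | 0 ≤ K} ∧
    ∀ K, 0 ≤ K → IsSelfAdjoint (q K) ∧ ∀ x y, ⟪q K x, q K y⟫_ℂ = ⟪x, K y⟫_ℂ :=
  ⟨CFC.sqrt, CFC.continuousOn_sqrt, fun K hK =>
    have sa : IsSelfAdjoint (CFC.sqrt K) := (CFC.sqrt_nonneg K).isSelfAdjoint
    ⟨sa, fun x y => by
      rw [← adjoint_inner_right, sa.adjoint_eq, ← mul_apply_eq_comp,
        CFC.sqrt_mul_sqrt_self _ hK]⟩⟩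

/-- The admissible Gram matrices. -/
def Phi {G : Type u} [Group G] (B : Finset G) (t : ℕ) (ε : ℝ) (a : Fin t → V B t) :
    Set (V B t →L[ℂ] V B t) :=
  {K | 0 ≤ K ∧ (∀ g b b' : G, b ∈ B → b' ∈ B → g * b ∈ B → g * b' ∈ B → ∀ i j,
    ⟪dl B (g * b) i, K (dl B (g * b') j)⟫_ℂ = ⟪dl B b i, K (dl B b' j)⟫_ℂ) ∧
    (∀ b ∈ B, ⟪dl B b none, K (dl B b none)⟫_ℂ = 1) ∧
    (∀ b ∈ B, ∀ b' ∈ B, b ≠ b' → ⟪dl B b none, K (dl B b' none)⟫_ℂ = 0) ∧
    ∑ τ, (⟪a τ, K (a τ)⟫_ℂ).re <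
      ε ^ 2 * (1 + ∑ τ, (⟪dl B 1 (some τ), K (dl B 1 (some τ))⟫_ℂ).re)}

variable {G : Type u} [Group G] {B : Finset G} {t : ℕ} {ε : ℝ}

theorem phi_convex (a : Fin t → V B t) : Convex ℝ (Phi B t ε a) := by
  rintro K ⟨a1, a2, a3, a4, a5⟩ K' ⟨b1, b2, b3, b4, b5⟩ s s' hs hs' e
  have k : ∀ x y, ⟪x, (s • K + s' • K') y⟫_ℂ = s * ⟪x, K y⟫_ℂ + s' * ⟪x, K' y⟫_ℂ := fun x y => by
    simp [inner_add_right, ← Complex.coe_smul, inner_smul_right]
  refine ⟨add_nonneg (smul_nonneg hs a1) (smul_nonneg hs' b1), fun g b b' c1 c2 c3 c4 i j => by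
    rw [k, k, a2 g b b' c1 c2 c3 c4, b2 g b b' c1 c2 c3 c4], fun b hb => by
      rw [k, a3 b hb, b3 b hb]; exact_mod_cast (by linarith : s * 1 + s' * 1 = 1),
    fun b hb b' hb' h => by simp [k, a4 b hb b' hb' h, b4 b hb b' hb' h], ?_⟩
  simp only [k, Complex.add_re, Complex.re_ofReal_mul, sum_add_distrib, ← mul_sum]
  have := convex_Ioi (0 : ℝ) (sub_pos.2 a5) (sub_pos.2 b5) hs hs' e
  simp only [Set.mem_Ioi, smul_eq_mul] at this
  have e2 : ε ^ 2 * (s + s') = ε ^ 2 := by rw [e, mul_one]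
  nlinarith

theorem phi_ne (h1 : (1 : G) ∈ B) (hε : 0 < ε) (a : Fin t → V B t) :
    (Phi B t ε a).Nonempty := by
  classical
  obtain ⟨E, _, _, _, d, l, r, hd, hl, hr, hm, hc⟩ := exists_reg G
  obtain ⟨η, hη⟩ := exists_eta hl hr hc ((↑) : B → G) (fun i p => a i p) hε
  obtain ⟨J, hJ⟩ : ∃ J : V B t →L[ℂ] E, ∀ x, J x = ∑ p, x p • l p.1 (p.2.elim (d 1) η) :=
    ⟨∑ p, (PiLp.proj 2 (fun _ => ℂ) p).smulRight (l p.1 (p.2.elim (d 1) η)), fun x => by simp⟩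
  have hJ' : ∀ b ∈ B, ∀ i, J (dl B b i) = l b (i.elim (d 1) η) := fun b hb i => by
    rw [hJ, dl, dif_pos hb, sum_eq_single (⟨b, hb⟩, i)] <;> simp +contextual
  obtain ⟨K, K0, k⟩ := exists_gram J
  have n : ∀ x : E, (⟪x, x⟫_ℂ).re = ‖x‖ ^ 2 := inner_self_eq_norm_sq (𝕜 := ℂ)
  refine ⟨K, K0, fun g b b' c1 c2 c3 c4 i j => ?_, fun b hb => ?_,
    fun b hb b' hb' h => ?_, ?_⟩
  · rw [k, k, hJ' _ c1, hJ' _ c2, hJ' _ c3, hJ' _ c4, hm, hm, (l g).inner_map_map]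
  · simp [k, hJ' _ hb, hl, hd.1]
  · simpa [k, hJ' _ hb, hJ' _ hb', hl] using hd.2 h
  · simp only [k, n, hJ' _ h1, LinearIsometryEquiv.norm_map]
    simpa only [hJ, Option.elim_some] using hη

end S

theorem sel : SelStmt.{u} := by
  intro G _ B h1 t ε hε
  obtain ⟨g, hg⟩ := exists_continuous_forall_mem_convex_of_local_const
    (S.phi_convex (B := B) (t := t) (ε := ε)) fun a => by
      obtain ⟨K, a1, a2, a3, a4, a5⟩ := S.phi_ne h1 hε a
      have : Continuous fun a : Fin t → V B t => ∑ τ, (⟪a τ, K (a τ)⟫_ℂ).re := by fun_prop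
      exact ⟨K, (this.continuousAt.eventually_lt continuousAt_const a5).mono fun y hy =>
        ⟨a1, a2, a3, a4, hy⟩⟩
  obtain ⟨q, q1, q2⟩ := S.exists_sqrt (V B t)
  refine ⟨fun a => q (g a), q1.comp_continuous g.continuous fun a => (hg a).1, fun a => ?_⟩
  obtain ⟨a1, a2, a3, a4, a5⟩ := hg a
  obtain ⟨sa, k⟩ := q2 _ a1
  have n : ∀ x, ‖q (g a) x‖ ^ 2 = (⟪x, g a x⟫_ℂ).re := fun x => by
    rw [← k]; exact (inner_self_eq_norm_sq (𝕜 := ℂ) _).symm
  refine ⟨⟨sa, fun g b b' c1 c2 c3 c4 i j => by rw [k, k, a2 g b b' c1 c2 c3 c4], fun b hb => ?_,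
    fun b hb b' hb' h => by rw [k, a4 b hb b' hb' h]⟩, by simpa only [n] using a5⟩
  rw [← sq_eq_sq₀ (norm_nonneg _) zero_le_one, n, a3 b hb]
  simp

end Vale.Agent.P174
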