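import Vale.Agent.P174.Deg
import Vale.Agent.P174.Polar

namespace Vale.Agent.P174

open MeasureTheory Set Filter Topology Module

variable {E : Type*} [NormedAddCommGroup E] [NormedSpace ℝ E] [FiniteDimensional ℝ E]
variable {A : Type*} [CStarAlgebra A] [FiniteDimensional ℂ A]

structure Reg {F : Type*} [NormedAddCommGroup F] [NormedSpace ℝ F] (C Ω : Set E) (f : E → F) :
    Prop where
  c : ContinuousOn f C
  d : ContDiffOn ℝ 1 f Ω

noncomputable def sand (a b : A) (f : E →L[ℝ] A) : E →L[ℝ] A :=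
  (ContinuousLinearMap.mulLeftRight ℝ A a b).comp f

omit [FiniteDimensional ℝ E] [FiniteDimensional ℂ A] in
lemma ContinuousOn.sand {X : Type*} [TopologicalSpace X] {s : Set X} {a b : X → A}
    {f : X → E →L[ℝ] A} (ha : ContinuousOn a s) (hb : ContinuousOn b s) (hf : ContinuousOn f s) :
    ContinuousOn (fun x => sand (a x) (b x) (f x)) s :=
  (((continuousOn_const.clm_apply ha).clm_apply hb).clm_comp hf)

/-- the map with three inserted coefficients -/
noncomputable def Ph (ι : A →L[ℝ] E) (R : E → E) (α β : E → A) (P Q : E → unitary A)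
    (c : unitary A × unitary A × unitary A) (x : E) : E :=
  R x + ι (α x * (c.2.1 * P x * c.1 * Q x * c.2.2 : unitary A) * β x)

noncomputable def Dv (ι : A →L[ℝ] E) (R : E → E) (α β : E → A) (P Q : E → unitary A)
    (c : unitary A × unitary A × unitary A) (x : E) : E →L[ℝ] E :=
  fderiv ℝ R x + ι.comp (sand 1 ((c.2.1 * P x * c.1 * Q x * c.2.2 : unitary A) * β x) (fderiv ℝ α x)
    + sand (α x * c.2.1) ((c.1 * Q x * c.2.2 : unitary A) * β x) (fderiv ℝ (fun x => (P x : A)) x)
    + sand (α x * (c.2.1 * P x * c.1 : unitary A)) (c.2.2 * β x) (fderiv ℝ (fun x => (Q x : A)) x)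
    + sand (α x * (c.2.1 * P x * c.1 * Q x * c.2.2 : unitary A)) 1 (fderiv ℝ β x))

def th {G : Type*} [Group G] (p q : G) (c : G × G × G) : G × G × G :=
  (q⁻¹ * c.1⁻¹ * p⁻¹, c.2.1 * (p * c.1), c.1 * q * c.2.2)

variable {ι : A →L[ℝ] E} {R : E → E} {α β : E → A} {P Q : E → unitary A} {T : E → E} {C Ω : Set E}

omit [FiniteDimensional ℝ E] [FiniteDimensional ℂ A] in
lemma Ph_th (c : unitary A × unitary A × unitary A) (x : E) :
    Ph ι R α β Q P (th (P x) (Q x) c) x = Ph ι R α β P Q c x := by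
  simp only [Ph, th]
  congr 5
  group

omit [FiniteDimensional ℝ E] [FiniteDimensional ℂ A] in
lemma Dv_th (c : unitary A × unitary A × unitary A) (x : E) :
    Dv ι R α β Q P (th (P x) (Q x) c) x = Dv ι R α β P Q c x := by
  have e1 : c.2.1 * (P x * c.1) * Q x * ((Q x)⁻¹ * c.1⁻¹ * (P x)⁻¹) * P x * (c.1 * Q x * c.2.2) =
    c.2.1 * P x * c.1 * Q x * c.2.2 := by group
  have e2 : (Q x)⁻¹ * c.1⁻¹ * (P x)⁻¹ * P x * (c.1 * Q x * c.2.2) = c.2.2 := by group
  have e3 : c.2.1 * (P x * c.1) * Q x * ((Q x)⁻¹ * c.1⁻¹ * (P x)⁻¹) = c.2.1 := by group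
  simp only [Dv, th]
  rw [e1, e2, e3, ← mul_assoc c.2.1, add_right_comm (sand 1 _ _)]

omit [FiniteDimensional ℝ E] [FiniteDimensional ℂ A] in
lemma Ph_deriv (hΩ : IsOpen Ω) (hR : Reg C Ω R) (hα : Reg C Ω α) (hβ : Reg C Ω β)
    (hP : Reg C Ω fun x => (P x : A)) (hQ : Reg C Ω fun x => (Q x : A))
    (c : unitary A × unitary A × unitary A) {x : E} (hx : x ∈ Ω) :
    HasFDerivAt (Ph ι R α β P Q c) (Dv ι R α β P Q c x) x := by
  have d : ∀ {F : Type _} [NormedAddCommGroup F] [NormedSpace ℝ F] {f : E → F}, Reg C Ω f →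
      HasFDerivAt f (fderiv ℝ f x) x := fun h =>
    ((h.d.contDiffAt (hΩ.mem_nhds hx)).differentiableAt one_ne_zero).hasFDerivAt
  have dR : HasFDerivAt R (fderiv ℝ R x) x :=
    ((hR.d.contDiffAt (hΩ.mem_nhds hx)).differentiableAt one_ne_zero).hasFDerivAt
  have h1 := ((d hα).fun_mul' ((((((d hP).const_mul (c.2.1 : A)).mul_const' (c.1 : A)).fun_mul'
    (d hQ))).mul_const' (c.2.2 : A))).fun_mul' (d hβ)
  refine (dR.fun_add (ι.hasFDerivAt.comp x h1)).congr_fderiv ?_
  ext v
  simp [Dv, sand, mul_add, add_mul, mul_assoc]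
  abel

omit [NormedSpace ℝ E] [FiniteDimensional ℝ E] [FiniteDimensional ℂ A] in
lemma coe_cont (s : Set ((unitary A × unitary A × unitary A) × E)) :
    ContinuousOn (fun z : (unitary A × unitary A × unitary A) × E => (z.1.1 : A)) s ∧
    ContinuousOn (fun z : (unitary A × unitary A × unitary A) × E => (z.1.2.1 : A)) s ∧
    ContinuousOn (fun z : (unitary A × unitary A × unitary A) × E => (z.1.2.2 : A)) s :=
  ⟨Continuous.continuousOn (by fun_prop), Continuous.continuousOn (by fun_prop),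
    Continuous.continuousOn (by fun_prop)⟩

omit [FiniteDimensional ℝ E] [FiniteDimensional ℂ A] in
lemma Ph_cont (hR : Reg C Ω R) (hα : Reg C Ω α) (hβ : Reg C Ω β)
    (hP : Reg C Ω fun x => (P x : A)) (hQ : Reg C Ω fun x => (Q x : A)) :
    ContinuousOn (fun z : (unitary A × unitary A × unitary A) × E => Ph ι R α β P Q z.1 z.2)
      (univ ×ˢ C) := by
  have d : ∀ {f : E → A}, Reg C Ω f → ContinuousOn
      (fun z : (unitary A × unitary A × unitary A) × E => f z.2) (univ ×ˢ C) :=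
    fun h => h.c.comp continuousOn_snd fun z hz => hz.2
  have dR : ContinuousOn (fun z : (unitary A × unitary A × unitary A) × E => R z.2) (univ ×ˢ C) :=
    hR.c.comp continuousOn_snd fun z hz => hz.2
  obtain ⟨k1, k2, k3⟩ := coe_cont (A := A) (E := E) (univ ×ˢ C)
  exact dR.add (ι.continuous.comp_continuousOn (((d hα).mul
    ((((k2.mul (d hP)).mul k1).mul (d hQ)).mul k3)).mul (d hβ)))

omit [FiniteDimensional ℝ E] [FiniteDimensional ℂ A] in
lemma Dv_cont (hΩ : IsOpen Ω) (hs : Ω ⊆ C) (hR : Reg C Ω R) (hα : Reg C Ω α) (hβ : Reg C Ω β)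
    (hP : Reg C Ω fun x => (P x : A)) (hQ : Reg C Ω fun x => (Q x : A)) :
    ContinuousOn (fun z : (unitary A × unitary A × unitary A) × E => Dv ι R α β P Q z.1 z.2)
      (univ ×ˢ Ω) := by
  have d : ∀ {f : E → A}, Reg C Ω f → ContinuousOn
      (fun z : (unitary A × unitary A × unitary A) × E => f z.2) (univ ×ˢ Ω) ∧ ContinuousOn
      (fun z : (unitary A × unitary A × unitary A) × E => fderiv ℝ f z.2) (univ ×ˢ Ω) :=
    fun h => ⟨h.c.comp continuousOn_snd fun z hz => hs hz.2,
      (h.d.continuousOn_fderiv_of_isOpen hΩ le_rfl).comp continuousOn_snd fun z hz => hz.2⟩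
  have dR : ContinuousOn (fun z : (unitary A × unitary A × unitary A) × E => fderiv ℝ R z.2)
      (univ ×ˢ Ω) :=
    (hR.d.continuousOn_fderiv_of_isOpen hΩ le_rfl).comp continuousOn_snd fun z hz => hz.2
  have h1 := (d hα).1
  have h2 := (d hβ).1
  have h3 := (d hP).1
  have h4 := (d hQ).1
  obtain ⟨k1, k2, k3⟩ := coe_cont (A := A) (E := E) (univ ×ˢ Ω)
  have k4 := (((k2.mul h3).mul k1).mul h4).mul k3
  exact dR.add (continuousOn_const.clm_comp ((((ContinuousOn.sand continuousOn_const (k4.mul h2)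
    (d hα).2).add (ContinuousOn.sand (h1.mul k2) (((k1.mul h4).mul k3).mul h2) (d hP).2)).add
    (ContinuousOn.sand (h1.mul ((k2.mul h3).mul k1)) (k3.mul h2) (d hQ).2)).add
    (ContinuousOn.sand (h1.mul k4) continuousOn_const (d hβ).2)))

lemma th_pres {G : Type*} [Group G] [MeasurableSpace G] [MeasurableMul₂ G] {ν : Measure G}
    [SFinite ν] (h1 : ∀ a b, MeasurePreserving (fun x => a * x * b) ν ν)
    (h2 : MeasurePreserving (fun x => x⁻¹) ν ν) (p q : G) :
    MeasurePreserving (th p q) (ν.prod (ν.prod ν)) (ν.prod (ν.prod ν)) := by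
  refine MeasurePreserving.skew_product (f := fun c => q⁻¹ * c⁻¹ * p⁻¹)
    (g := fun c (d : G × G) => (d.1 * (p * c), c * q * d.2)) ((h1 q⁻¹ p⁻¹).comp h2) (by
      unfold Function.uncurry; fun_prop) (Eventually.of_forall fun c => ?_)
  have := ((h1 1 (p * c)).prod (h1 (c * q) 1)).map_eq
  simpa [Prod.map_def] using this

variable [MeasurableSpace E] [BorelSpace E] {μ : Measure E} [μ.IsAddHaarMeasure]

theorem Deg.swap [Nontrivial E] (hT : IsT T) (hC : IsCompact C) (hΩ : IsOpen Ω) (hs : Ω ⊆ C)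
    (hR : Reg C Ω R) (hα : Reg C Ω α) (hβ : Reg C Ω β)
    (hP : Reg C Ω fun x => (P x : A)) (hQ : Reg C Ω fun x => (Q x : A)) {l : ℝ}
    (hb : ∀ x ∈ C \ Ω, ∀ w : unitary A, 1 < l * ‖R x + ι (α x * w * β x)‖) {d : ℝ}
    (h : Deg μ T C Ω (Ph ι R α β P Q 1) d) : Deg μ T C Ω (Ph ι R α β Q P 1) d := by
  haveI := compact_unitary (A := A)
  haveI := conn_unitary (A := A)
  haveI : ProperSpace A := FiniteDimensional.proper ℂ A
  letI : MeasurableSpace (unitary A) := borel _
  haveI : BorelSpace (unitary A) := ⟨rfl⟩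
  obtain ⟨ν, hν, n1, n2⟩ := exists_haar (unitary A)
  set ν3 := ν.prod (ν.prod ν) with hν3
  have hne : ∀ {P Q : E → unitary A} c, ∀ x ∈ C \ Ω, Ph ι R α β P Q c x ≠ 0 :=
    fun {P Q} c x hx h0 => by
      have := hb x hx (c.2.1 * P x * c.1 * Q x * c.2.2)
      rw [show R x + ι (α x * _ * β x) = 0 from h0, norm_zero, mul_zero] at this
      linarith
  set K : Set E := Prod.snd '' ((univ ×ˢ C) ∩
    (fun z : unitary A × E => ‖l • (R z.2 + ι (α z.2 * z.1 * β z.2))‖) ⁻¹' Iic 1) with hKd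
  have hCI := (isCompact_univ (X := unitary A)).prod hC
  have hK : IsCompact K := by
    refine (hCI.of_isClosed_subset (ContinuousOn.preimage_isClosed_of_isClosed ?_ hCI.isClosed
      isClosed_Iic) inter_subset_left).image continuous_snd
    have h1 : ContinuousOn (fun z : unitary A × E => R z.2) (univ ×ˢ C) :=
      hR.c.comp continuousOn_snd fun z hz => hz.2
    have h2 : ContinuousOn (fun z : unitary A × E => α z.2) (univ ×ˢ C) :=
      hα.c.comp continuousOn_snd fun z hz => hz.2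
    have h3 : ContinuousOn (fun z : unitary A × E => β z.2) (univ ×ˢ C) :=
      hβ.c.comp continuousOn_snd fun z hz => hz.2
    exact ((h1.add (ι.continuous.comp_continuousOn ((h2.mul
      (continuous_subtype_val.comp continuous_fst).continuousOn).mul h3))).const_smul l).norm
  have hKΩ : K ⊆ Ω := by
    rintro _ ⟨z, hz, rfl⟩
    by_contra hn
    have h1 := hb _ ⟨hz.1.2, hn⟩ z.1
    have h2 : ‖l • (R z.2 + ι (α z.2 * z.1 * β z.2))‖ ≤ 1 := hz.2
    rw [norm_smul] at h2
    nlinarith [mul_le_mul_of_nonneg_right (Real.le_norm_self l)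
      (norm_nonneg (R z.2 + ι (α z.2 * z.1 * β z.2)))]
  set J : (E → unitary A) → (E → unitary A) → (unitary A × unitary A × unitary A) → E → ℝ :=
    fun P Q c x => (fderiv ℝ T (l • Ph ι R α β P Q c x)).det * (l • Dv ι R α β P Q c x).det
    with hJ
  have main : ∀ {P Q : E → unitary A}, Reg C Ω (fun x => (P x : A)) →
      Reg C Ω (fun x => (Q x : A)) → ∀ {d}, Deg μ T C Ω (Ph ι R α β P Q 1) d →
      (∀ x ∈ K, Continuous fun c => J P Q c x) ∧ d = ∫ x in K, ∫ c, J P Q c x ∂ν3 ∂μ := by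
    intro P Q hP hQ d h
    have c1 := Ph_cont (ι := ι) hR hα hβ hP hQ
    have cJ : ContinuousOn (fun z : (unitary A × unitary A × unitary A) × E => J P Q z.1 z.2)
        (univ ×ˢ K) :=
      (ContinuousLinearMap.continuous_det.comp_continuousOn
        ((hT.diff.continuous_fderiv one_ne_zero).comp_continuousOn ((c1.mono
          (prod_mono_right (hKΩ.trans hs))).const_smul l))).mul
      (ContinuousLinearMap.continuous_det.comp_continuousOn
        (((Dv_cont hΩ hs hR hα hβ hP hQ).mono (prod_mono_right hKΩ)).const_smul l))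
    have e : ∀ c, d = ∫ x in K, J P Q c x ∂μ := fun c => by
      have hd : ContDiffOn ℝ 1 (Ph ι R α β P Q c) Ω := hR.d.add (ι.contDiff.comp_contDiffOn
        ((hα.d.mul ((((contDiffOn_const.mul hP.d).mul contDiffOn_const).mul hQ.d).mul
          contDiffOn_const)).mul hβ.d))
      rw [(h.homotopy hT hC hΩ hs c1 hne (q := c)).unique hT hC hΩ hs (deg_self (l := l)
        (Φ := Ph ι R α β P Q c) (c1.comp (Continuous.prodMk_right c).continuousOn fun x hx => ⟨trivial, hx⟩) hd
        fun x hx => hb x hx _), setIntegral_eq_of_subset_of_forall_diff_eq_zero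
        (f := jac T fun x => l • Ph ι R α β P Q c x) hΩ.measurableSet hKΩ fun x hx =>
        jac_zero hT (F := fun x => l • Ph ι R α β P Q c x) (not_le.1 fun h =>
          hx.2 ⟨(_, x), ⟨⟨trivial, hs hx.1⟩, h⟩, rfl⟩)]
      refine setIntegral_congr_fun hK.measurableSet fun x hx => ?_
      simp only [jac, hJ]
      rw [((Ph_deriv hΩ hR hα hβ hP hQ c (hKΩ hx)).fun_const_smul l).fderiv]
    refine ⟨fun x hx => cJ.comp_continuous (Continuous.prodMk_left x) fun c => ⟨trivial, hx⟩, ?_⟩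
    have hi : Integrable (Function.uncurry (J P Q)) (ν3.prod (μ.restrict K)) := by
      have := cJ.integrableOn_compact (μ := ν3.prod μ) (isCompact_univ.prod hK)
      rwa [IntegrableOn, ← Measure.prod_restrict, Measure.restrict_univ] at this
    rw [← integral_integral_swap hi]
    simp [← e]
  obtain ⟨d', h'⟩ := exists_deg (μ := μ) (T := T) hC hΩ ((Ph_cont (ι := ι) hR hα hβ hQ hP).comp
    (Continuous.prodMk_right 1).continuousOn fun x hx => ⟨trivial, hx⟩) (hne 1)
  obtain ⟨-, e1⟩ := main hP hQ h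
  obtain ⟨c2, e2⟩ := main hQ hP h'
  suffices d = d' by rw [this]; exact h'
  rw [e1, e2]
  refine setIntegral_congr_fun hK.measurableSet fun x hx => ?_
  have hp := th_pres n1 n2 (P x) (Q x)
  have := integral_map (μ := ν3) hp.measurable.aemeasurable
    (f := fun c => J Q P c x) (c2 x hx).aestronglyMeasurable
  rw [hp.map_eq] at this
  refine Eq.trans ?_ this.symm
  simp only [hJ, Ph_th, Dv_th]

end Vale.Agent.P174
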