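import Vale.Agent.P174.Swap
import Vale.Agent.P174.Pow

namespace Vale.Agent.P174

open MeasureTheory Set Filter Topology Module

variable {A : Type*} [CStarAlgebra A] {Y : Type*} [NormedAddCommGroup Y] [InnerProductSpace ℝ Y]
  {m : ℕ}

def CC (p : Polar A) (m : ℕ) (Y : Type*) [NormedAddCommGroup Y] : Set ((Fin m → A) × Y) :=
  {z | (∀ i, ‖star (z.1 i) * z.1 i - 1‖ ≤ p.r) ∧ |‖z.2‖ ^ 2 - 2| ≤ 1}

def OO (p : Polar A) (m : ℕ) (Y : Type*) [NormedAddCommGroup Y] : Set ((Fin m → A) × Y) :=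
  {z | (∀ i, ‖star (z.1 i) * z.1 i - 1‖ < p.r) ∧ |‖z.2‖ ^ 2 - 2| < 1}

variable (p : Polar A)

omit [InnerProductSpace ℝ Y] in
lemma OO_sub : OO p m Y ⊆ CC p m Y := fun _ hz => ⟨fun i => (hz.1 i).le, hz.2.le⟩

omit [InnerProductSpace ℝ Y] in
lemma OO_open : IsOpen (OO p m Y) := by
  rw [OO, setOf_and, setOf_forall]
  exact (isOpen_iInter_of_finite fun i => isOpen_lt (by fun_prop) continuous_const).inter
    (isOpen_lt (by fun_prop) continuous_const)

lemma CC_compact [FiniteDimensional ℂ A] [FiniteDimensional ℝ Y] : IsCompact (CC p m Y) := by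
  haveI : ProperSpace A := FiniteDimensional.proper ℂ A
  haveI : ProperSpace Y := FiniteDimensional.proper ℝ Y
  refine (isCompact_closedBall 0 (p.r + 2)).of_isClosed_subset ?_ fun z hz => ?_
  · rw [CC, setOf_and, setOf_forall]
    exact (isClosed_iInter fun i => isClosed_le (by fun_prop) continuous_const).inter
      (isClosed_le (by fun_prop) continuous_const)
  · have r0 := p.r0
    rw [mem_closedBall_zero_iff, Prod.norm_def, max_le_iff, pi_norm_le_iff_of_nonneg (by linarith)]
    refine ⟨fun i => ?_, ?_⟩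
    · have h1 := norm_add_le (star (z.1 i) * z.1 i - 1) 1
      rw [sub_add_cancel, CStarRing.norm_star_mul_self] at h1
      have h2 : ‖(1 : A)‖ ≤ 1 := by
        rcases subsingleton_or_nontrivial A with H | H
        · simp [Subsingleton.elim (1 : A) 0]
        · exact norm_one.le
      nlinarith [hz.1 i, norm_nonneg (z.1 i)]
    · nlinarith [(abs_le.1 hz.2).2, norm_nonneg z.2]

noncomputable def FF (W : Fin m → unitary A) (z : (Fin m → A) × Y) : (Fin m → A) × Y :=
  (fun i => W i * p.h (z.1 i) - 1, (‖z.2‖ ^ 2 - 2) • z.2)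

lemma sq_eq {X : A} (hX : ‖star X * X - 1‖ ≤ p.r) (w : unitary A) :
    star (w * p.h X) * (w * p.h X) = star X * X := by
  conv_rhs => rw [← p.eq X hX]
  simp only [star_mul, mul_assoc, ← mul_assoc (star (w : A)), ← mul_assoc (star (p.u X : A)),
    (Unitary.mem_iff.1 w.2).1, (Unitary.mem_iff.1 (p.u X).2).1]

lemma FF_bd : ∃ l : ℝ, 0 < l ∧ ∀ z ∈ CC p m Y \ OO p m Y, ∀ W : Fin m → unitary A,
    1 < l * ‖FF p W z‖ := by
  have r0 := p.r0
  refine ⟨3 / p.r + 2, by positivity, fun z hz W => ?_⟩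
  have n0 := norm_nonneg (FF p W z)
  have h3 : 0 < 3 / p.r := by positivity
  by_cases h : 1 ≤ ‖FF p W z‖
  · nlinarith
  by_cases h2 : |‖z.2‖ ^ 2 - 2| < 1
  · obtain ⟨i, hi⟩ : ∃ i, p.r ≤ ‖star (z.1 i) * z.1 i - 1‖ := by
      by_contra hn
      push Not at hn
      exact hz.2 ⟨hn, h2⟩
    set a : A := W i * p.h (z.1 i) - 1 with ha
    have h4 : ‖a‖ ≤ ‖FF p W z‖ := (norm_le_pi_norm (FF p W z).1 i).trans (norm_fst_le _)
    have e : star (z.1 i) * z.1 i - 1 = star a * a + star a + a := by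
      rw [← sq_eq p (hz.1.1 i) (W i), ha, star_sub, star_one]; noncomm_ring
    have h5 := norm_add₃_le (a := star a * a) (b := star a) (c := a)
    rw [← e, CStarRing.norm_star_mul_self, norm_star] at h5
    have h6 : p.r ≤ 3 * ‖FF p W z‖ := by nlinarith [norm_nonneg a]
    have h7 : 3 / p.r * p.r ≤ 3 / p.r * (3 * ‖FF p W z‖) := mul_le_mul_of_nonneg_left h6 h3.le
    rw [div_mul_cancel₀ _ r0.ne'] at h7
    nlinarith
  · have h4 : ‖(‖z.2‖ ^ 2 - 2) • z.2‖ ≤ ‖FF p W z‖ := norm_snd_le (FF p W z)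
    rw [norm_smul, Real.norm_eq_abs, le_antisymm hz.1.2 (not_lt.1 h2)] at h4
    have h5 : 1 ≤ ‖z.2‖ := by nlinarith [(abs_le.1 hz.1.2).1, norm_nonneg z.2]
    linarith

lemma reg_of {F : Type*} [NormedAddCommGroup F] [NormedSpace ℝ F] {f : (Fin m → A) × Y → F}
    (h : ∀ z ∈ CC p m Y, ContDiffAt ℝ 1 f z) : Reg (CC p m Y) (OO p m Y) f :=
  ⟨fun z hz => (h z hz).continuousAt.continuousWithinAt,
    fun z hz => (h z (OO_sub p hz)).contDiffWithinAt⟩

noncomputable def ev (v : FreeGroup (Fin m)) (z : (Fin m → A) × Y) : unitary A :=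
  FreeGroup.lift (fun j => p.u (z.1 j)) v

lemma co_diff (i : Fin m) : ContDiff ℝ 1 fun z : (Fin m → A) × Y => z.1 i :=
  (contDiff_apply ℝ A i).comp contDiff_fst

lemma ev_diff (v : FreeGroup (Fin m)) {z : (Fin m → A) × Y} (hz : z ∈ CC p m Y) :
    ContDiffAt ℝ 1 (fun z => (ev p v z : A)) z := by
  induction v using FreeGroup.induction_on with
  | C1 => simpa [ev] using contDiffAt_const
  | of j =>
    simp only [ev, FreeGroup.lift_apply_of]
    exact ContDiffAt.comp (g := fun X => (p.u X : A)) (f := fun z : (Fin m → A) × Y => z.1 j) z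
      (p.du _ (hz.1 j)) (co_diff j).contDiffAt
  | inv_of j h =>
    simp only [ev, map_inv, ← Unitary.star_eq_inv, Unitary.coe_star] at h ⊢
    exact (starL' ℝ (A := A)).contDiff.contDiffAt.comp z h
  | mul a b ha hb =>
    simp only [ev, map_mul, Submonoid.coe_mul] at ha hb ⊢
    exact ha.mul hb

lemma h_diff (i : Fin m) {z : (Fin m → A) × Y} (hz : z ∈ CC p m Y) :
    ContDiffAt ℝ 1 (fun z : (Fin m → A) × Y => p.h (z.1 i)) z :=
  ContDiffAt.comp (g := p.h) z (p.dh _ (hz.1 i)) (co_diff i).contDiffAt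

noncomputable def PW (v : Fin m → FreeGroup (Fin m)) (z : (Fin m → A) × Y) : (Fin m → A) × Y :=
  FF p (fun i => ev p (v i) z) z

lemma PW_diff (v : Fin m → FreeGroup (Fin m)) {z : (Fin m → A) × Y} (hz : z ∈ CC p m Y) :
    ContDiffAt ℝ 1 (PW p v) z :=
  (contDiffAt_pi.2 fun i => ((ev_diff p (v i) hz).mul (h_diff p i hz)).sub contDiffAt_const).prodMk
    ((((contDiff_norm_sq ℝ).comp contDiff_snd).sub contDiff_const).smul contDiff_snd).contDiffAt

lemma FF_update (W : Fin m → unitary A) (i : Fin m) (w : unitary A) (z : (Fin m → A) × Y) :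
    FF p W z - (Pi.single i (W i * p.h (z.1 i)), 0) + (Pi.single i (w * p.h (z.1 i)), 0) =
      FF p (Function.update W i w) z := by
  ext j
  · by_cases h : j = i
    · subst h; simp [FF]; abel
    · simp [FF, h]
  · simp [FF]

def ex (m : ℕ) : FreeGroup (Fin m) →* Multiplicative (Fin m → ℤ) :=
  FreeGroup.lift fun j => Multiplicative.ofAdd (Pi.single j 1)

lemma ex_ker {z : FreeGroup (Fin m)} (h : ex m z = 1) : z ∈ commutator (FreeGroup (Fin m)) := by
  let g : Multiplicative (Fin m → ℤ) →* Abelianization (FreeGroup (Fin m)) :=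
    { toFun := fun n => ∏ j, Abelianization.of (FreeGroup.of j) ^ (Multiplicative.toAdd n j)
      map_one' := by simp
      map_mul' := fun a b => by simp [zpow_add, Finset.prod_mul_distrib] }
  have e : g.comp (ex m) = Abelianization.of := FreeGroup.ext_hom _ _ fun j => by
    simp only [g, ex, MonoidHom.comp_apply, FreeGroup.lift_apply_of, MonoidHom.coe_mk,
      OneHom.coe_mk, toAdd_ofAdd]
    rw [Finset.prod_eq_single j (fun b _ hb => by simp [hb]) (by simp)]
    simp
  rw [← Abelianization.ker_of, MonoidHom.mem_ker, ← e, MonoidHom.comp_apply, h, map_one]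

lemma perm_inv {G : Type*} [Group G] (Dg : G → Prop)
    (h : ∀ a b c e, Dg (a * (b * c) * e) → Dg (a * (c * b) * e)) {z z' : G}
    (hz : z⁻¹ * z' ∈ commutator G) : Dg z → Dg z' := by
  let S : Subgroup G :=
    { carrier := {k | ∀ z, Dg z ↔ Dg (z * k)}
      one_mem' := fun z => by rw [mul_one]
      mul_mem' := fun {a b} ha hb z => by rw [ha z, hb (z * a), mul_assoc]
      inv_mem' := fun {a} ha z => by rw [ha (z * a⁻¹), inv_mul_cancel_right] }
  have : commutator G ≤ S := Subgroup.commutator_le.2 fun b _ c _ z => by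
    rw [commutatorElement_def]
    constructor
    · intro hd
      have := h z c b (b⁻¹ * c⁻¹) (by simpa [mul_assoc] using hd)
      simpa [mul_assoc] using this
    · intro hd
      have := h z b c (b⁻¹ * c⁻¹) (by simpa [mul_assoc] using hd)
      simpa [mul_assoc] using this
  intro hd
  simpa using (this hz z).1 hd

variable [FiniteDimensional ℂ A] [FiniteDimensional ℝ Y] [Nontrivial Y]
  [MeasurableSpace ((Fin m → A) × Y)] [BorelSpace ((Fin m → A) × Y)]
  {μ : Measure ((Fin m → A) × Y)} [μ.IsAddHaarMeasure] {T : (Fin m → A) × Y → (Fin m → A) × Y}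

lemma PW_swap (hT : IsT T) (v : Fin m → FreeGroup (Fin m)) (i : Fin m) (d : ℝ)
    (a b c e : FreeGroup (Fin m))
    (h : Deg μ T (CC p m Y) (OO p m Y) (PW p (Function.update v i (a * (b * c) * e))) d) :
    Deg μ T (CC p m Y) (OO p m Y) (PW p (Function.update v i (a * (c * b) * e))) d := by
  obtain ⟨l, -, hl⟩ := FF_bd p (m := m) (Y := Y)
  let ι : A →L[ℝ] (Fin m → A) × Y :=
    (ContinuousLinearMap.inl ℝ _ _).comp (ContinuousLinearMap.single ℝ (fun _ => A) i)
  let R : (Fin m → A) × Y → (Fin m → A) × Y := fun z => PW p v z - ι (ev p (v i) z * p.h (z.1 i))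
  have k : ∀ z (w : unitary A), R z + ι (ev p a z * w * (ev p e z * p.h (z.1 i))) =
      FF p (Function.update (fun i => ev p (v i) z) i (ev p a z * w * ev p e z)) z := fun z w => by
    rw [← FF_update]
    simp [R, ι, PW, mul_assoc]
  have k2 : ∀ b c z, Ph ι R (fun z => ev p a z) (fun z => ev p e z * p.h (z.1 i)) (ev p b) (ev p c)
      1 z = PW p (Function.update v i (a * (b * c) * e)) z := fun b c z => by
    rw [Ph, k, PW]
    congr 1
    ext1 j
    by_cases hj : j = i
    · subst hj; simp [ev]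
    · simp [hj]
  refine (Deg.swap (R := R) hT (CC_compact p) (OO_open p) (OO_sub p) (reg_of p fun z hz =>
    (PW_diff p v hz).sub (ι.contDiff.contDiffAt.comp z ((ev_diff p _ hz).mul (h_diff p i hz))))
    (reg_of p fun z hz => ev_diff p a hz)
    (reg_of p fun z hz => (ev_diff p e hz).mul (h_diff p i hz))
    (reg_of p fun z hz => ev_diff p b hz) (reg_of p fun z hz => ev_diff p c hz) (l := l)
    (fun z hz w => ?_) (h.congr fun z _ => (k2 b c z).symm)).congr fun z _ => k2 c b z
  rw [k]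
  exact hl z hz _

lemma PW_perm (hT : IsT T) {v v' : Fin m → FreeGroup (Fin m)} (hv : ∀ i, ex m (v i) = ex m (v' i))
    {d : ℝ} (h : Deg μ T (CC p m Y) (OO p m Y) (PW p v) d) :
    Deg μ T (CC p m Y) (OO p m Y) (PW p v') d := by
  have : ∀ s : Finset (Fin m), Deg μ T (CC p m Y) (OO p m Y)
      (PW p fun i => if i ∈ s then v' i else v i) d := fun s => by
    induction s using Finset.induction_on with
    | empty => simpa using h
    | insert i s hi ih =>
      have := perm_inv (fun z => Deg μ T (CC p m Y) (OO p m Y)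
        (PW p (Function.update (fun i => if i ∈ s then v' i else v i) i z)) d)
        (PW_swap p hT _ i d) (z := v i) (z' := v' i) (ex_ker (by simp [hv i])) (by
          convert ih using 2
          ext1 j
          by_cases hj : j = i
          · subst hj; simp [hi]
          · simp [hj])
      convert this using 2
      ext1 j
      by_cases hj : j = i
      · subst hj; simp
      · simp [hj]
  simpa using this Finset.univ

theorem PW_pos (hT : IsT T) (hY : Odd (finrank ℝ Y)) (D : ℕ) : ∃ d, 0 < d ∧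
    Deg μ T (CC p m Y) (OO p m Y) (PW p fun i => FreeGroup.of i ^ (D + 1)) d := by
  obtain ⟨l, l0, hl⟩ := FF_bd p (m := m) (Y := Y)
  obtain ⟨k, hk⟩ := hY
  set Φ : (Fin m → A) × Y → (Fin m → A) × Y := PW p fun i => FreeGroup.of i ^ (D + 1) with hΦ
  have hR : Reg (CC p m Y) (OO p m Y) Φ := reg_of p fun z hz => PW_diff p _ hz
  refine ⟨_, ?_, deg_self (l := l) hR.c hR.d fun z hz => hl z hz _⟩
  set f : A → A := fun X => (p.u X : A) ^ (D + 1) * p.h X - 1 with hf
  set g : Y → Y := fun y => (‖y‖ ^ 2 - 2) • y with hg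
  have hdet : ∀ z ∈ OO p m Y, (fderiv ℝ (fun z => l • Φ z) z).det =
      l ^ finrank ℝ ((Fin m → A) × Y) * ((∏ i, (fderiv ℝ f (z.1 i)).det) *
        ((‖z.2‖ ^ 2 - 2) ^ (2 * k) * (‖z.2‖ ^ 2 - 2 + 2 * ‖z.2‖ ^ 2))) := fun z hz => by
    have df : ∀ i, HasFDerivAt f (fderiv ℝ f (z.1 i)) (z.1 i) := fun i =>
      (((((p.du _ (hz.1 i).le).pow (D + 1)).mul (p.dh _ (hz.1 i).le)).sub
        contDiffAt_const).differentiableAt one_ne_zero).hasFDerivAt
    have dg : HasFDerivAt g (fderiv ℝ g z.2) z.2 := (((((contDiff_norm_sq ℝ (n := 1)).sub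
      contDiff_const).smul contDiff_id).differentiable one_ne_zero) z.2).hasFDerivAt
    have d1 : HasFDerivAt (fun X : Fin m → A => fun i => f (X i)) (ContinuousLinearMap.pi fun i =>
        (fderiv ℝ f (z.1 i)).comp (ContinuousLinearMap.proj i)) z.1 :=
      hasFDerivAt_pi.2 fun i => HasFDerivAt.comp (g := f) (f := fun X : Fin m → A => X i) z.1
        (df i) (hasFDerivAt_apply (𝕜 := ℝ) i z.1)
    have e : Φ = Prod.map (fun X : Fin m → A => fun i => f (X i)) g := by
      ext z <;> simp [hΦ, PW, FF, ev, hf, hg]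
    rw [e, ((d1.prodMap z dg).fun_const_smul l).fderiv, det_smul', ← sph_det hk,
      ← ContinuousLinearMap.det_pi]
    congr 1
    exact LinearMap.det_prodMap _ _
  have hc := jac_contOn hT (OO_open p) (hR.d.const_smul l)
  have h0 : ∀ z ∈ OO p m Y, 0 ≤ jac T (fun z => l • Φ z) z := fun z hz => by
    rw [jac, hdet z hz]
    refine mul_nonneg (hT.nonneg _) (mul_nonneg (by positivity) (mul_nonneg
      (Finset.prod_nonneg fun i _ => (pow_det p D (hz.1 i)).1) (mul_nonneg
        ((even_two_mul k).pow_nonneg _) ?_)))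
    nlinarith [(abs_lt.1 hz.2).1]
  obtain ⟨e, he⟩ := exists_norm_eq Y zero_le_one
  have h1 : p.h 1 = 1 := p.one 1 (by simp)
  have u1 : p.u 1 = 1 := Subtype.ext (by simpa [h1] using p.eq 1 (by simpa using p.r0.le))
  have eΦ : ∀ y : Y, Φ (1, y) = (0, g y) := fun y => by
    ext <;> simp [hΦ, PW, FF, ev, hg, h1, u1]
  have ev1 : ∀ᶠ t in 𝓝 √2, 0 < (fderiv ℝ T (l • ((0 : Fin m → A), g (t • e)))).det := by
    have c1 : Continuous fun t : ℝ => (fderiv ℝ T (l • ((0 : Fin m → A), g (t • e)))).det :=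
      ContinuousLinearMap.continuous_det.comp ((hT.diff.continuous_fderiv one_ne_zero).comp
        (by simp only [hg]; fun_prop))
    refine c1.continuousAt.eventually (lt_mem_nhds ?_)
    have : g (√2 • e) = 0 := by simp [hg, norm_smul, he]
    simpa [this, Prod.mk_zero_zero] using hT.pos
  have ev2 : ∀ᶠ t in 𝓝 √2, |t ^ 2 - 2| < 1 :=
    (show Continuous fun t : ℝ => |t ^ 2 - 2| by fun_prop).continuousAt.eventually
      (gt_mem_nhds (by simp))
  obtain ⟨t, ⟨t1, t2⟩, t3⟩ := (((ev1.and ev2).filter_mono nhdsWithin_le_nhds).and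
    (self_mem_nhdsWithin (a := √2) (s := Ioi √2))).exists
  have t4 : 2 < t ^ 2 := by
    have : √2 < t := t3
    nlinarith [Real.sq_sqrt (zero_le_two (α := ℝ)), Real.sqrt_nonneg 2]
  have nt : ‖t • e‖ ^ 2 = t ^ 2 := by simp [norm_smul, he]
  have hz : ((1 : Fin m → A), t • e) ∈ OO p m Y := ⟨fun i => by simpa using p.r0, by rwa [nt]⟩
  have hpos : 0 < jac T (fun z => l • Φ z) (1, t • e) := by
    rw [jac, hdet _ hz, eΦ, nt]
    exact mul_pos t1 (mul_pos (by positivity) (mul_pos (Finset.prod_pos fun i _ =>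
      (pow_det p D (hz.1 i)).2 u1) (mul_pos (pow_pos (by linarith) _) (by linarith))))
  rw [setIntegral_pos_iff_support_of_nonneg_ae ((ae_restrict_iff' (OO_open p).measurableSet).2
    (Eventually.of_forall h0)) (jac_integrableOn μ hT (CC_compact p) (OO_open p) (OO_sub p)
      (hR.c.const_smul l) (hR.d.const_smul l) fun z hz => by
        rw [norm_smul, Real.norm_of_nonneg l0.le]; exact hl z hz _)]
  refine Measure.measure_pos_of_mem_nhds μ (x := (1, t • e)) ?_
  filter_upwards [(hc.continuousAt ((OO_open p).mem_nhds hz)).eventually (lt_mem_nhds hpos),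
    (OO_open p).mem_nhds hz] with z h1 h2 using ⟨h1.ne', h2⟩

end Vale.Agent.P174
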